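import Vale.Agent.P146.Goe.Law
import Vale.Agent.P166.Haar

/-!
# P146: the mean pressure of a polynomial in the GOE matrix

The law of the matrix is invariant under rotations, so the mean pressure is that of a Haar rotation
of its own spectrum.
-/

open MeasureTheory Real Finset Matrix Polynomial Filter Topology

namespace Vale.Agent.P146.Goe

open P150 (stdPi)
open P166 (IsOrth IsHaarOrth press rotate spin exists_isHaarOrth)

variable {N : ℕ}

theorem orth_matrix {U : Fin N → Fin N → ℝ} (hU : IsOrth U) :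
    Matrix.of U * (Matrix.of U)ᵀ = 1 ∧ (Matrix.of U)ᵀ * Matrix.of U = 1 :=
  ⟨Matrix.ext fun a b => by simpa [mul_apply, one_apply] using hU.1 a b,
    Matrix.ext fun a b => by simpa [mul_apply, one_apply] using hU.2 a b⟩

theorem quad_conj (U M : Matrix (Fin N) (Fin N) ℝ) (x : Fin N → Bool) :
    quad (Uᵀ * M * U) x = rotate U x ⬝ᵥ (M *ᵥ rotate U x) := by
  have e : rotate U x = U *ᵥ fun i => spin (x i) := rfl
  have e2 : quad (Uᵀ * M * U) x = (fun i => spin (x i)) ⬝ᵥ ((Uᵀ * M * U) *ᵥ fun i => spin (x i)) := by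
    simp only [quad, dotProduct, mulVec, mul_sum, mul_assoc]
  rw [e2, e, ← mulVec_mulVec, ← mulVec_mulVec, dotProduct_mulVec, vecMul_transpose]

theorem quad_conj_diag (U : Fin N → Fin N → ℝ) (v : Fin N → ℝ) (x : Fin N → Bool) :
    quad ((Matrix.of U)ᵀ * diagonal v * Matrix.of U) x = ∑ i, v i * rotate U x i ^ 2 := by
  rw [quad_conj]
  simp only [dotProduct, mulVec_diagonal]
  exact sum_congr rfl fun i _ => by
    show rotate U x i * (v i * rotate U x i) = _
    ring

/-- The pressure of a matrix. -/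
noncomputable def pressM (β : ℝ) (M : Matrix (Fin N) (Fin N) ℝ) : ℝ :=
  log ((1 / 2) ^ N * ∑ x, exp (β / 2 * quad M x)) / N

theorem press_eq (β : ℝ) (v : Fin N → ℝ) (U : Fin N → Fin N → ℝ) :
    pressM β ((Matrix.of U)ᵀ * diagonal v * Matrix.of U) = press β v U := by
  simp only [pressM, press, quad_conj_diag]

theorem abs_pressM_le (β : ℝ) (M : Matrix (Fin N) (Fin N) ℝ) {B : ℝ} (hB : ∀ x, |β / 2 * quad M x| ≤ N * B)
    (hB0 : 0 ≤ B) : |pressM β M| ≤ B := by
  rcases Nat.eq_zero_or_pos N with rfl | hN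
  · simpa [pressM] using hB0
  have hN' : (0 : ℝ) < N := by exact_mod_cast hN
  have hc : ((1 : ℝ) / 2) ^ N * Fintype.card (Fin N → Bool) = 1 := by simp
  have hpos : 0 < ((1 : ℝ) / 2) ^ N * ∑ x, exp (β / 2 * quad M x) :=
    mul_pos (by positivity) (sum_pos (fun x _ => exp_pos _) univ_nonempty)
  have hexp : ∀ y : ℝ, exp y = (1 / 2) ^ N * (Fintype.card (Fin N → Bool) • exp y) := fun y => by
    rw [nsmul_eq_mul, ← mul_assoc, hc, one_mul]
  rw [pressM, abs_div, abs_of_pos hN', div_le_iff₀ hN', mul_comm B, abs_le]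
  constructor
  · rw [le_log_iff_exp_le hpos, hexp]
    exact mul_le_mul_of_nonneg_left (card_nsmul_le_sum univ _ _ fun x _ =>
      exp_le_exp.2 (abs_le.1 (hB x)).1) (by positivity)
  · rw [log_le_iff_le_exp hpos, hexp]
    exact mul_le_mul_of_nonneg_left (sum_le_card_nsmul univ _ _ fun x _ =>
      exp_le_exp.2 (abs_le.1 (hB x)).2) (by positivity)

/-- The pressure is at most half the inverse temperature times the largest modulus. -/
theorem abs_press_le_sup {β : ℝ} (hβ : 0 ≤ β) {v : Fin N → ℝ} {B : ℝ} (hB : ∀ i, |v i| ≤ B) (hB0 : 0 ≤ B)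
    {U : Fin N → Fin N → ℝ} (hU : IsOrth U) : |press β v U| ≤ β / 2 * B := by
  rw [← press_eq]
  refine abs_pressM_le β _ (fun x => ?_) (by positivity)
  rw [quad_conj_diag, abs_mul, abs_of_nonneg (by positivity : 0 ≤ β / 2), ← mul_assoc, mul_comm (N : ℝ), mul_assoc]
  refine mul_le_mul_of_nonneg_left ?_ (by positivity)
  have hsum : ∑ i, rotate U x i ^ 2 = N := by
    have e : rotate U x = Matrix.of U *ᵥ fun i => spin (x i) := rfl
    have e2 : ∑ i, rotate U x i ^ 2 = rotate U x ⬝ᵥ rotate U x := by simp [dotProduct, pow_two]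
    rw [e2, e, dotProduct_mulVec, ← mulVec_transpose, mulVec_mulVec, (orth_matrix hU).2, one_mulVec]
    have hsp : ∀ b, spin b * spin b = 1 := fun b => by cases b <;> simp [spin]
    simp [dotProduct, hsp]
  refine (abs_sum_le_sum_abs _ _).trans ((sum_le_sum (g := fun i => B * rotate U x i ^ 2) fun i _ => ?_).trans_eq ?_)
  · rw [abs_mul, abs_of_nonneg (sq_nonneg (rotate U x i))]
    exact mul_le_mul_of_nonneg_right (hB i) (sq_nonneg _)
  · rw [← mul_sum, hsum, mul_comm]

/-- The array of a conjugated matrix. -/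
noncomputable def conjArr (V : Fin N → Fin N → ℝ) (g : Fin N × Fin N → ℝ) : Fin N × Fin N → ℝ :=
  (Matrix.of fun (p r : Fin N × Fin N) => V r.1 p.1 * V r.2 p.2) *ᵥ g

theorem goe_conjArr (V : Fin N → Fin N → ℝ) (g : Fin N × Fin N → ℝ) :
    goe N (conjArr V g) = (Matrix.of V)ᵀ * goe N g * Matrix.of V := by
  ext i j
  simp only [goe, conjArr, mulVec, dotProduct, of_apply, mul_apply, transpose_apply, Fintype.sum_prod_type,
    sum_mul]
  rw [add_div, sum_div, sum_div]
  simp only [sum_div]
  conv_rhs => rw [sum_comm]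
  rw [← sum_add_distrib]
  have h : ∀ a b, V a i * ((g (a, b) + g (b, a)) / √(2 * (N : ℝ))) * V b j
      = V a i * V b j * g (a, b) / √(2 * (N : ℝ)) + V b j * V a i * g (b, a) / √(2 * (N : ℝ)) := fun a b => by ring
  simp only [h, sum_add_distrib]
  congr 1
  rw [sum_comm]

theorem mp_conjArr {V : Fin N → Fin N → ℝ} (hV : IsOrth V) :
    MeasurePreserving (conjArr V) (stdPi (Fin N × Fin N)) (stdPi (Fin N × Fin N)) := by
  refine P166.measurePreserving_orth _ (Matrix.ext fun p r => ?_)
  simp only [mul_apply, transpose_apply, of_apply, Fintype.sum_prod_type]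
  have e : ∀ a b, V p.1 a * V p.2 b * (V r.1 a * V r.2 b) = (V p.1 a * V r.1 a) * (V p.2 b * V r.2 b) :=
    fun a b => by ring
  simp only [e, ← mul_sum, ← sum_mul, hV.1, one_apply, Prod.ext_iff]
  split_ifs <;> simp_all

/-- The pressure of the polynomial of the matrix and of a rotated copy. -/
noncomputable def pRot (β : ℝ) (f : ℝ[X]) (z : (Fin N × Fin N → ℝ) × (Fin N → Fin N → ℝ)) : ℝ :=
  pressM β ((Matrix.of z.2)ᵀ * aeval (goe N z.1) f * Matrix.of z.2)

theorem continuous_aeval_goe (f : ℝ[X]) : Continuous fun g : Fin N × Fin N → ℝ => aeval (goe N g) f :=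
  (Polynomial.continuous_aeval f).comp continuous_goe

theorem continuous_pRot (β : ℝ) (f : ℝ[X]) : Continuous (pRot (N := N) β f) := by
  unfold pRot pressM
  have hA : Continuous fun z : (Fin N × Fin N → ℝ) × (Fin N → Fin N → ℝ) =>
      (Matrix.of z.2)ᵀ * aeval (goe N z.1) f * Matrix.of z.2 :=
    ((continuous_snd.matrix_transpose).matrix_mul ((continuous_aeval_goe f).comp continuous_fst)).matrix_mul
      continuous_snd
  refine ((continuous_const.mul (continuous_finsetSum _ fun x _ => ?_)).log fun z => ?_).div_const _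
  · refine continuous_exp.comp (continuous_const.mul ?_)
    unfold quad
    exact continuous_finsetSum _ fun i _ => continuous_finsetSum _ fun j _ =>
      (continuous_const.mul (hA.matrix_elem i j)).mul continuous_const
  · exact (mul_pos (by positivity) (sum_pos (fun x _ => exp_pos _) univ_nonempty)).ne'

/-- The fourth power sum of the transformed eigenvalues. -/
noncomputable def four (f : ℝ[X]) (g : Fin N × Fin N → ℝ) : ℝ := ∑ i, f.eval (lamG g i) ^ 4

theorem four_eq (f : ℝ[X]) (g : Fin N × Fin N → ℝ) : four f g = N * trP (f ^ 4) g := by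
  rw [trP, trace_aeval]
  rcases Nat.eq_zero_or_pos N with rfl | hN
  · simp [four]
  rw [four, mul_div_cancel₀ _ (by exact_mod_cast hN.ne')]
  simp

theorem grow_four (f : ℝ[X]) : Grow (four (N := N) f) := by
  rw [show four (N := N) f = fun g => (N : ℝ) * trP (f ^ 4) g from funext (four_eq f)]
  exact (grow_trP (f ^ 4)).const_mul _

theorem abs_eval_le (f : ℝ[X]) (g : Fin N × Fin N → ℝ) {t : ℝ} (ht : 0 < t) (i : Fin N) :
    |f.eval (lamG g i)| ≤ t + four f g / t ^ 3 := by
  set y := |f.eval (lamG g i)|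
  have hy4 : y ^ 4 ≤ four f g := by
    rw [show y ^ 4 = f.eval (lamG g i) ^ 4 from Even.pow_abs (by decide) _]
    exact single_le_sum (f := fun j => f.eval (lamG g j) ^ 4) (fun j _ => by positivity) (mem_univ i)
  have hS : 0 ≤ four f g := (pow_nonneg (abs_nonneg _) 4).trans hy4
  rcases le_total y t with h | h
  · linarith [div_nonneg hS (pow_nonneg ht.le 3)]
  · have : y ≤ four f g / t ^ 3 := by
      rw [le_div_iff₀ (pow_pos ht 3)]
      refine le_trans ?_ hy4
      rw [pow_succ' y 3]
      exact mul_le_mul_of_nonneg_left (pow_le_pow_left₀ ht.le h 3) (abs_nonneg _)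
    linarith

/-- Averaged over rotations, the rotated pressure is the Haar pressure of the spectrum. -/
theorem integral_pRot {m : Measure (Fin N → Fin N → ℝ)} (hm : IsHaarOrth m) (β : ℝ) (f : ℝ[X])
    (g : Fin N × Fin N → ℝ) :
    ∫ U, pRot β f (g, U) ∂m = ∫ U, press β (fun i => f.eval (lamG g i)) U ∂m := by
  obtain ⟨V, h1, h2, h3⟩ := exists_spectral g
  have hV : IsOrth (fun i j => V i j) := by
    rw [P166.isOrth_iff]
    exact h1
  rw [← P166.integral_left hm hV (P166.continuous_press (β := β) fun i => f.eval (lamG g i))]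
  refine integral_congr_ae (ae_of_all _ fun U => ?_)
  simp only [pRot, h3, aeval_conj h1 h2, aeval_diag]
  rw [← press_eq]
  congr 1
  rw [P166.mul_eq_matrix, transpose_mul]
  simp only [mul_assoc]
  rfl

theorem integrable_pRot {m : Measure (Fin N → Fin N → ℝ)} (hm : IsHaarOrth m) {β : ℝ} (hβ : 0 ≤ β) (f : ℝ[X]) :
    Integrable (pRot (N := N) β f) ((stdPi (Fin N × Fin N)).prod m) := by
  have := hm.1
  refine Integrable.mono' ((((integrable_const (1 : ℝ)).add (grow_four f).integrable).comp_fst m).const_mul (β / 2))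
    (continuous_pRot β f).aestronglyMeasurable ?_
  filter_upwards [Measure.quasiMeasurePreserving_snd.ae hm.2.1] with z hz
  obtain ⟨V, h1, h2, h3⟩ := exists_spectral z.1
  have hV : IsOrth (fun i j => V i j) := by
    rw [P166.isOrth_iff]
    exact h1
  have e : pRot β f z = press β (fun i => f.eval (lamG z.1 i)) (P166.mul (fun i j => V i j) z.2) := by
    simp only [pRot, h3, aeval_conj h1 h2, aeval_diag]
    rw [← press_eq]
    congr 1
    rw [P166.mul_eq_matrix, transpose_mul]
    simp only [mul_assoc]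
    rfl
  have hS : 0 ≤ four f z.1 := sum_nonneg fun i _ => by positivity
  rw [e, norm_eq_abs, Pi.add_apply]
  refine abs_press_le_sup hβ (fun i => ?_) (by linarith) (hV.mul hz)
  simpa using abs_eval_le f z.1 one_pos i

/-- The law of the matrix is invariant, so its mean pressure is a Haar pressure. -/
theorem meanP_eq {m : Measure (Fin N → Fin N → ℝ)} (hm : IsHaarOrth m) {β : ℝ} (hβ : 0 ≤ β) (f : ℝ[X]) :
    meanP β f N = ∫ g, ∫ U, press β (fun i => f.eval (lamG g i)) U ∂m ∂stdPi (Fin N × Fin N) := by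
  have := hm.1
  have hi := integrable_pRot hm hβ f
  have e1 : meanP β f N = ∫ g, pressM β (aeval (goe N g) f) ∂stdPi (Fin N × Fin N) := rfl
  calc meanP β f N = ∫ U, (∫ g, pRot β f (g, U) ∂stdPi (Fin N × Fin N)) ∂m := by
        rw [e1]
        have h : ∀ᵐ U ∂m, ∫ g, pRot β f (g, U) ∂stdPi (Fin N × Fin N)
            = ∫ g, pressM β (aeval (goe N g) f) ∂stdPi (Fin N × Fin N) := hm.2.1.mono fun U hU => by
          obtain ⟨h1, h2⟩ := orth_matrix hU
          have hc : ∀ g, pRot β f (g, U) = pressM β (aeval (goe N (conjArr U g)) f) := fun g => by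
            rw [goe_conjArr, aeval_conj h1 h2]; rfl
          simp only [hc]
          have hmeas : Continuous fun g : Fin N × Fin N → ℝ => pressM β (aeval (goe N g) f) := by
            refine ((continuous_pRot (N := N) β f).comp (continuous_id.prodMk
              (continuous_const (y := fun i j => (1 : Matrix (Fin N) (Fin N) ℝ) i j)))).congr fun g => ?_
            simp only [pRot, Function.comp_apply, id_eq]
            rw [show Matrix.of (fun i j => (1 : Matrix (Fin N) (Fin N) ℝ) i j) = 1 from rfl,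
              transpose_one, one_mul, mul_one]
          conv_rhs => rw [← (mp_conjArr hU).map_eq, integral_map (mp_conjArr hU).measurable.aemeasurable
            hmeas.aestronglyMeasurable]
        rw [integral_congr_ae h, integral_const, probReal_univ, one_smul]
    _ = ∫ g, ∫ U, pRot β f (g, U) ∂m ∂stdPi (Fin N × Fin N) := (integral_integral_swap (f := fun g U => pRot β f (g, U)) hi).symm
    _ = _ := integral_congr_ae (ae_of_all _ (integral_pRot hm β f))

end Vale.Agent.P146.Goe

namespace Vale.Agent.P146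

open Goe
open P150 (stdPi)
open P166 (IsHaarOrth press exists_isHaarOrth)

/-- Seat A. -/
theorem spectralStmt : SpectralStmt := by
  intro β f b l hβ _ hb hl
  refine Metric.tendsto_nhds.2 fun ε hε => ?_
  obtain ⟨k, hk⟩ := exists_good_uniform f hb hl (show 0 < ε / 4 by linarith)
  obtain ⟨C, hC, hbad⟩ := exists_bad_le k
  obtain ⟨M, hM⟩ : ∃ M, ∀ᶠ N in atTop, ∫ g, trP (N := N) (f ^ 4) g ∂stdPi (Fin N × Fin N) ≤ M :=
    ⟨_, (tendsto_trP (f ^ 4)).eventually (eventually_le_nhds (lt_add_one _))⟩
  have hsmall : ∀ᶠ N : ℕ in atTop, (|l| * C) / (N : ℝ) + β / 2 * (C + max M 0) / √(N : ℝ) < ε / 2 := by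
    have h1 : Tendsto (fun N : ℕ => (|l| * C) / (N : ℝ)) atTop (𝓝 0) :=
      tendsto_const_nhds.div_atTop tendsto_natCast_atTop_atTop
    have h2 : Tendsto (fun N : ℕ => β / 2 * (C + max M 0) / √(N : ℝ)) atTop (𝓝 0) :=
      tendsto_const_nhds.div_atTop (tendsto_sqrt_atTop.comp tendsto_natCast_atTop_atTop)
    have h3 := h1.add h2
    rw [add_zero] at h3
    exact h3.eventually_lt_const (by linarith)
  filter_upwards [hk, hbad, hM, hsmall, eventually_gt_atTop 0] with N hkN hbN hMN hsN hN
  obtain ⟨m, hm⟩ := exists_isHaarOrth N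
  have := hm.1
  have hN' : (0 : ℝ) < N := by exact_mod_cast hN
  have hs : 0 < √(N : ℝ) := sqrt_pos.2 hN'
  have hss : √(N : ℝ) ^ 2 = N := sq_sqrt hN'.le
  set P := stdPi (Fin N × Fin N)
  set Bad := toMeasurable P {g | ¬ Good k (lamG g)}
  have hBm : MeasurableSet Bad := measurableSet_toMeasurable _ _
  have hBP : P.real Bad ≤ C / N := by
    rw [measureReal_def, measure_toMeasurable]; exact hbN
  set Φ := fun g => ∫ U, press β (fun i => f.eval (lamG g i)) U ∂m
  have hΦi : Integrable Φ P :=
    (integrable_pRot hm hβ.le f).integral_prod_left.congr (ae_of_all _ (integral_pRot hm β f))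
  set bd := fun g => ε / 4 + Bad.indicator (fun _ => β / 2 * √(N : ℝ) + |l|) g
    + β / 2 * (four f g / √(N : ℝ) ^ 3)
  have hΦ : ∀ g, |Φ g - l| ≤ bd g := fun g => by
    have hS : 0 ≤ four f g := sum_nonneg fun i _ => by positivity
    have hdiv : 0 ≤ β / 2 * (four f g / √(N : ℝ) ^ 3) := by positivity
    by_cases hg : Good k (lamG g)
    · have hind : 0 ≤ Bad.indicator (fun _ => β / 2 * √(N : ℝ) + |l|) g :=
        Set.indicator_nonneg (fun _ _ => by positivity) g
      simp only [bd]
      linarith [hkN _ hg m hm]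
    · have hgB : g ∈ Bad := subset_toMeasurable P {g | ¬ Good k (lamG g)} hg
      simp only [bd, Set.indicator_of_mem hgB]
      have h1 : |Φ g| ≤ β / 2 * (√(N : ℝ) + four f g / √(N : ℝ) ^ 3) := by
        have h := norm_integral_le_of_norm_le_const (μ := m) (hm.2.1.mono fun U hU =>
          abs_press_le_sup hβ.le (v := fun i => f.eval (lamG g i)) (fun i => abs_eval_le f g hs i)
            (by positivity) hU : ∀ᵐ U ∂m, ‖press β (fun i => f.eval (lamG g i)) U‖
              ≤ β / 2 * (√(N : ℝ) + four f g / √(N : ℝ) ^ 3))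
        simpa using h
      linarith [abs_sub (Φ g) l]
  have hi2 : Integrable (fun g => Bad.indicator (fun _ => β / 2 * √(N : ℝ) + |l|) g) P :=
    (integrable_const _).indicator hBm
  have hi3 : Integrable (fun g => β / 2 * (four f g / √(N : ℝ) ^ 3)) P :=
    ((grow_four f).integrable.div_const _).const_mul _
  rw [Real.dist_eq, meanP_eq hm hβ.le f,
    show ∫ g, Φ g ∂P - l = ∫ g, Φ g - l ∂P by
      rw [integral_sub hΦi (integrable_const _), integral_const, probReal_univ, one_smul]]
  refine lt_of_le_of_lt (abs_integral_le_integral_abs.trans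
    (integral_mono (hΦi.sub (integrable_const _)).abs (((integrable_const _).add hi2).add hi3) hΦ)) ?_
  simp only [Pi.add_apply]
  have hi12 : Integrable (fun x => ε / 4 + Bad.indicator (fun _ => β / 2 * √(N : ℝ) + |l|) x) P :=
    (integrable_const _).add hi2
  rw [integral_add hi12 hi3, integral_add (integrable_const _) hi2,
    integral_indicator_const _ hBm, integral_const_mul, integral_div, integral_const, probReal_univ,
    one_smul, smul_eq_mul]
  rw [show four (N := N) f = fun g => (N : ℝ) * trP (f ^ 4) g from funext (four_eq f)]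
  simp only [integral_div, integral_const_mul]
  have e1 : P.real Bad * (β / 2 * √(N : ℝ) + |l|) ≤ C / N * (β / 2 * √(N : ℝ) + |l|) :=
    mul_le_mul_of_nonneg_right hBP (by positivity)
  have e2 : β / 2 * (((N : ℝ) * ∫ g, trP (N := N) (f ^ 4) g ∂P) / √(N : ℝ) ^ 3)
      ≤ β / 2 * ((N : ℝ) * max M 0 / √(N : ℝ) ^ 3) := by
    refine mul_le_mul_of_nonneg_left (div_le_div_of_nonneg_right
      (mul_le_mul_of_nonneg_left (hMN.trans (le_max_left _ _)) hN'.le) (by positivity)) (by positivity)
  have e3 : C / N * (β / 2 * √(N : ℝ) + |l|) + β / 2 * ((N : ℝ) * max M 0 / √(N : ℝ) ^ 3)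
      = |l| * C / N + β / 2 * (C + max M 0) / √(N : ℝ) := by
    field_simp
    linear_combination (C * β * √(N : ℝ) ^ 2 - β * N * max M 0) * hss
  linarith

end Vale.Agent.P146
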