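import Vale.Agent.P146.Pins

/-!
# P146: the moments of the semicircle law
-/

open MeasureTheory Real Finset Polynomial intervalIntegral

namespace Vale.Agent.P146

/-- Integrals against the semicircle law. -/
theorem integral_semi {f : ℝ → ℝ} (hf : Continuous f) :
    ∫ t, f t ∂semi = ∫ θ in (0 : ℝ)..π, 2 / π * sin θ ^ 2 * f (2 * cos θ) := by
  have h1 : Measurable fun θ : ℝ => 2 * cos θ := by fun_prop
  rw [semi, integral_map h1.aemeasurable hf.aestronglyMeasurable,
    integral_withDensity_eq_integral_toReal_smul (by fun_prop) (ae_of_all _ fun θ => ENNReal.ofReal_lt_top),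
    intervalIntegral.integral_of_le pi_pos.le]
  refine setIntegral_congr_fun measurableSet_Ioc fun θ _ => ?_
  show (ENNReal.ofReal (2 / π * sin θ ^ 2)).toReal • f (2 * cos θ) = _
  rw [ENNReal.toReal_ofReal (by positivity), smul_eq_mul]

theorem semi_support : ∀ᵐ t ∂semi, t ∈ Set.Icc (-2 : ℝ) 2 := by
  rw [semi]
  refine (ae_map_iff (by fun_prop) measurableSet_Icc).2 (ae_of_all _ fun θ => ?_)
  constructor <;> linarith [neg_one_le_cos θ, cos_le_one θ]

theorem isProb_semi : IsProbabilityMeasure semi := by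
  refine ⟨?_⟩
  rw [semi, Measure.map_apply (by fun_prop) MeasurableSet.univ, Set.preimage_univ,
    withDensity_apply _ MeasurableSet.univ, Measure.restrict_univ,
    ← ofReal_integral_eq_lintegral_ofReal (f := fun θ : ℝ => 2 / π * sin θ ^ 2)
      (Continuous.integrableOn_Ioc (by fun_prop))
      (ae_of_all _ fun θ => by positivity),
    ← intervalIntegral.integral_of_le pi_pos.le, intervalIntegral.integral_const_mul, integral_sin_sq]
  simp [pi_ne_zero]

/-- The moments. -/
noncomputable def scMom (n : ℕ) : ℝ := ∫ t, t ^ n ∂semi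

theorem scMom_eq (n : ℕ) :
    scMom n = 2 / π * 2 ^ n * ((∫ θ in (0 : ℝ)..π, cos θ ^ n) / (n + 2)) := by
  have e : ∫ θ in (0 : ℝ)..π, cos θ ^ n * sin θ ^ 2 = (∫ θ in (0 : ℝ)..π, cos θ ^ n) / (n + 2) := by
    have e1 : ∀ θ, cos θ ^ n * sin θ ^ 2 = cos θ ^ n - cos θ ^ (n + 2) := fun θ => by rw [sin_sq]; ring
    simp only [e1]
    rw [intervalIntegral.integral_sub (Continuous.intervalIntegrable (by fun_prop) _ _)
      (Continuous.intervalIntegrable (by fun_prop) _ _), integral_cos_pow]
    simp only [sin_pi, sin_zero, mul_zero, sub_self, zero_div, zero_add]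
    field_simp
    ring
  rw [scMom, integral_semi (by fun_prop), ← e, ← intervalIntegral.integral_const_mul]
  refine intervalIntegral.integral_congr fun θ _ => ?_
  simp only [mul_pow]
  ring

theorem scMom_zero : scMom 0 = 1 := by
  rw [scMom_eq]; simp [pi_ne_zero]

theorem scMom_one : scMom 1 = 0 := by
  rw [scMom_eq]; simp

theorem scMom_step (n : ℕ) : ((n : ℝ) + 4) * scMom (n + 2) = 4 * ((n : ℝ) + 1) * scMom n := by
  rw [scMom_eq, scMom_eq, integral_cos_pow]
  simp only [sin_pi, sin_zero, mul_zero, sub_self, zero_div, zero_add]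
  push_cast
  field_simp
  ring

theorem scMom_odd (p : ℕ) : scMom (2 * p + 1) = 0 := by
  induction p with
  | zero => exact scMom_one
  | succ p ih =>
    have h := scMom_step (2 * p + 1)
    rw [ih, mul_zero] at h
    rw [show 2 * (p + 1) + 1 = 2 * p + 1 + 2 by omega]
    exact (mul_eq_zero.1 h).resolve_left (by positivity)

theorem scMom_even (p : ℕ) : scMom (2 * p) = catalan p := by
  induction p with
  | zero => simp [scMom_zero]
  | succ p ih =>
    have h := scMom_step (2 * p)
    rw [ih] at h
    have h1 := succ_mul_catalan_eq_centralBinom p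
    have h2 := succ_mul_catalan_eq_centralBinom (p + 1)
    have h3 := Nat.succ_mul_centralBinom_succ p
    rify at h1 h2 h3
    rw [show 2 * (p + 1) = 2 * p + 2 by omega]
    push_cast at h
    have hp : (0 : ℝ) < (p : ℝ) + 1 := by positivity
    have h4 : ((p : ℝ) + 1 + 1) * (catalan (p + 1) : ℝ) = 2 * (2 * p + 1) * catalan p := by
      apply mul_left_cancel₀ hp.ne'
      push_cast at h1 h2 h3
      linear_combination ((p : ℝ) + 1) * h2 - 2 * (2 * (p : ℝ) + 1) * h1 + h3
    apply mul_left_cancel₀ (show (2 * (p : ℝ) + 4) ≠ 0 by positivity)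
    linear_combination h - 2 * h4

theorem scMom_nonneg (n : ℕ) : 0 ≤ scMom n := by
  rcases Nat.even_or_odd' n with ⟨p, rfl | rfl⟩
  · rw [scMom_even]; positivity
  · rw [scMom_odd]

/-- The moments solve the limiting loop equation. -/
theorem scMom_succ (q : ℕ) : scMom (q + 2) = ∑ a ∈ range (q + 1), scMom a * scMom (q - a) := by
  rcases Nat.even_or_odd' q with ⟨p, rfl | rfl⟩
  · have h : ∀ a ∈ range (2 * p + 1), scMom a * scMom (2 * p - a)
        = if a % 2 = 0 then (catalan (a / 2) * catalan (p - a / 2) : ℝ) else 0 := fun a ha => by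
      have := mem_range.1 ha
      rcases Nat.even_or_odd' a with ⟨i, rfl | rfl⟩
      · rw [show 2 * p - 2 * i = 2 * (p - i) by omega, scMom_even, scMom_even, if_pos (by omega),
          show 2 * i / 2 = i by omega]
      · rw [scMom_odd, zero_mul, if_neg (by omega)]
    rw [sum_congr rfl h, ← sum_filter, show 2 * p + 2 = 2 * (p + 1) by omega, scMom_even, catalan_succ,
      Nat.cast_sum]
    refine sum_bij (fun i _ => 2 * (i : ℕ)) (fun i _ => ?_) (fun i _ j _ h => ?_) (fun a ha => ?_) fun i _ => ?_
    · simp only [mem_filter, mem_range]; omega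
    · exact Fin.ext (by omega)
    · simp only [mem_filter, mem_range] at ha
      exact ⟨⟨a / 2, by omega⟩, mem_univ _, by simp; omega⟩
    · rw [Nat.cast_mul, show 2 * (i : ℕ) / 2 = (i : ℕ) by omega]
  · rw [show 2 * p + 1 + 2 = 2 * (p + 1) + 1 by omega, scMom_odd]
    refine (sum_eq_zero fun a ha => ?_).symm
    have := mem_range.1 ha
    rcases Nat.even_or_odd' a with ⟨i, rfl | rfl⟩
    · rw [show 2 * p + 1 - 2 * i = 2 * (p - i) + 1 by omega, scMom_odd, mul_zero]
    · rw [scMom_odd, zero_mul]

end Vale.Agent.P146
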