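import Vale.Agent.P146.Goe.Spec
import Vale.Agent.P146.Goe.Semicircle

/-!
# P146: the moments of the GOE matrix converge to those of the semicircle law
-/

open MeasureTheory Real Finset Matrix Polynomial Filter Topology

namespace Vale.Agent.P146.Goe

open P150 (stdPi)

variable {N : ℕ}

theorem mom_zero (hN : 0 < N) : mom N 0 = 1 := by
  simp [mom, trM_zero hN]

theorem measurePreserving_neg (κ : Type*) [Fintype κ] :
    MeasurePreserving (fun g : κ → ℝ => -g) (stdPi κ) (stdPi κ) := by
  classical
  have h := P166.measurePreserving_orth (κ := κ) (-1) (by simp)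
  simpa [Matrix.neg_mulVec] using h

theorem mom_odd (p : ℕ) : mom N (2 * p + 1) = 0 := by
  have h : mom N (2 * p + 1) = -mom N (2 * p + 1) := by
    have hm := measurePreserving_neg (Fin N × Fin N)
    have e : ∀ g : Fin N × Fin N → ℝ, trM (2 * p + 1) (-g) = -trM (2 * p + 1) g := fun g => by
      have e1 : goe N (-g) = -goe N g := by
        ext i j
        simp only [goe, Matrix.neg_apply, Pi.neg_apply]
        ring
      rw [trM, trM, e1, neg_pow, (odd_two_mul_add_one p).neg_one_pow, neg_one_mul, trace_neg, neg_div]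
    unfold mom
    conv_lhs => rw [← hm.map_eq, integral_map hm.measurable.aemeasurable
      (by rw [hm.map_eq]; exact (grow_trM _).integrable.1)]
    simp only [e, integral_neg]
  linarith

/-- A bound on the even moments, uniform in the size. -/
def momBd : ℕ → ℝ
  | 0 => 1
  | p + 1 => (3 * (2 * (p : ℝ) + 1)) * momBd p

theorem momBd_nonneg : ∀ p, 0 ≤ momBd p
  | 0 => zero_le_one
  | p + 1 => mul_nonneg (by positivity) (momBd_nonneg p)

theorem mom_two_nonneg (p : ℕ) : 0 ≤ mom N (2 * p) :=
  integral_nonneg fun g => trM_two_nonneg p g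

theorem mom_two_le (hN : 0 < N) : ∀ p, mom N (2 * p) ≤ momBd p
  | 0 => by simp [momBd, mom_zero hN]
  | p + 1 => by
    have h0 := mom_two_le hN p
    have h1 := mom_two_nonneg (N := N) p
    have hsum : ∑ a ∈ range (2 * p + 1), ∫ g, trM (N := N) a g * trM (2 * p - a) g ∂stdPi (Fin N × Fin N)
        ≤ (2 * (p : ℝ) + 1) * (2 * mom N (2 * p)) := by
      refine (sum_le_card_nsmul _ _ (2 * mom N (2 * p)) fun a ha => ?_).trans_eq ?_
      · rw [mom, ← integral_const_mul]
        refine integral_mono ((grow_trM a).mul (grow_trM _)).integrable ((grow_trM _).const_mul 2).integrable fun g => ?_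
        have := mem_range.1 ha
        exact (le_abs_self _).trans (abs_trM_mul_le a (2 * p - a) (by omega) g)
      · rw [card_range, nsmul_eq_mul]; push_cast; ring
    rw [show 2 * (p + 1) = 2 * p + 2 by ring, mom_succ hN, momBd]
    have hN' : (1 : ℝ) ≤ N := by exact_mod_cast hN
    have h2 : ((2 * p : ℕ) + 1 : ℝ) / N * mom N (2 * p) ≤ (2 * (p : ℝ) + 1) * mom N (2 * p) := by
      refine mul_le_mul_of_nonneg_right ((div_le_self (by positivity) hN').trans ?_) h1
      push_cast
      exact le_rfl
    have h3 := mul_le_mul_of_nonneg_left h0 (show (0 : ℝ) ≤ 3 * (2 * p + 1) by positivity)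
    linarith

/-- The variance of a normalised trace is of order `N⁻²`. -/
theorem var_trM_le' (hN : 0 < N) (q : ℕ) :
    ∫ g, (trM (N := N) q g - mom N q) ^ 2 ∂stdPi (Fin N × Fin N)
      ≤ 6 * (q : ℝ) ^ 2 * momBd (q - 1) / (N : ℝ) ^ 2 := by
  refine (var_trM_le q).trans (le_of_le_of_eq (mul_le_mul_of_nonneg_left (mom_two_le hN _) (by positivity)) ?_)
  ring

/-- Products of traces decouple. -/
theorem abs_cov_le (hN : 0 < N) (a b : ℕ) :
    |∫ g, trM (N := N) a g * trM b g ∂stdPi (Fin N × Fin N) - mom N a * mom N b|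
      ≤ 3 * ((a : ℝ) ^ 2 * momBd (a - 1) + (b : ℝ) ^ 2 * momBd (b - 1)) / (N : ℝ) ^ 2 := by
  set P := stdPi (Fin N × Fin N)
  have hA := (grow_trM (N := N) a).sub (grow_const (mom N a))
  have hB := (grow_trM (N := N) b).sub (grow_const (mom N b))
  have e : ∫ g, trM (N := N) a g * trM b g ∂P - mom N a * mom N b
      = ∫ g, (trM (N := N) a g - mom N a) * (trM b g - mom N b) ∂P := by
    have e1 : ∀ g, (trM (N := N) a g - mom N a) * (trM b g - mom N b)
        = trM a g * trM b g - mom N b * trM a g - mom N a * trM b g + mom N a * mom N b := fun g => by ring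
    simp only [e1]
    rw [integral_add ((((grow_trM a).mul (grow_trM b)).sub ((grow_trM a).const_mul _)).sub
        ((grow_trM b).const_mul _)).integrable (integrable_const _),
      integral_sub (((grow_trM a).mul (grow_trM b)).sub ((grow_trM a).const_mul _)).integrable
        ((grow_trM b).const_mul _).integrable,
      integral_sub ((grow_trM a).mul (grow_trM b)).integrable ((grow_trM a).const_mul _).integrable,
      integral_const_mul, integral_const_mul, integral_const, probReal_univ, one_smul]
    simp only [mom, P]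
    ring
  rw [e]
  refine abs_integral_le_integral_abs.trans ((integral_mono (hA.mul hB).integrable.abs
    ((hA.sq.add hB.sq).const_mul (1 / 2)).integrable fun g => ?_).trans ?_)
  · rw [abs_mul]
    nlinarith [two_mul_le_add_sq |trM (N := N) a g - mom N a| |trM b g - mom N b|,
      sq_abs (trM (N := N) a g - mom N a), sq_abs (trM (N := N) b g - mom N b)]
  · rw [integral_const_mul, integral_add hA.sq.integrable hB.sq.integrable]
    have h1 := var_trM_le' hN a
    have h2 := var_trM_le' hN b
    rw [show 3 * ((a : ℝ) ^ 2 * momBd (a - 1) + (b : ℝ) ^ 2 * momBd (b - 1)) / (N : ℝ) ^ 2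
      = 1 / 2 * (6 * (a : ℝ) ^ 2 * momBd (a - 1) / (N : ℝ) ^ 2)
        + 1 / 2 * (6 * (b : ℝ) ^ 2 * momBd (b - 1) / (N : ℝ) ^ 2) by ring]
    linarith

theorem tendsto_inv_sq (C : ℝ) : Tendsto (fun N : ℕ => C / (N : ℝ) ^ 2) atTop (𝓝 0) :=
  tendsto_const_nhds.div_atTop ((tendsto_pow_atTop two_ne_zero).comp tendsto_natCast_atTop_atTop)

/-- The mean moments converge. -/
theorem tendsto_mom (q : ℕ) : Tendsto (fun N => mom N q) atTop (𝓝 (scMom q)) := by
  induction q using Nat.strong_induction_on with
  | _ q ih =>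
    match q with
    | 0 => exact tendsto_const_nhds.congr' ((eventually_gt_atTop 0).mono fun N hN => by
        show scMom 0 = mom N 0
        rw [scMom_zero, mom_zero hN])
    | 1 =>
      rw [scMom_one]
      exact tendsto_const_nhds.congr fun N => (mom_odd 0).symm
    | n + 2 =>
      rw [scMom_succ]
      have h1 : Tendsto (fun N => (∑ a ∈ range (n + 1),
          ∫ g, trM (N := N) a g * trM (n - a) g ∂stdPi (Fin N × Fin N))) atTop
          (𝓝 (∑ a ∈ range (n + 1), scMom a * scMom (n - a))) := by
        refine tendsto_finsetSum _ fun a ha => ?_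
        have := mem_range.1 ha
        have h2 := (ih a (by omega)).mul (ih (n - a) (by omega))
        have h3 : Tendsto (fun N => (∫ g, trM (N := N) a g * trM (n - a) g ∂stdPi (Fin N × Fin N))
            - mom N a * mom N (n - a)) atTop (𝓝 0) :=
          squeeze_zero_norm' ((eventually_gt_atTop 0).mono fun N hN => abs_cov_le hN a (n - a))
            (tendsto_inv_sq _)
        simpa using h3.add h2
      have h4 : Tendsto (fun N : ℕ => ((n : ℝ) + 1) / N * mom N n) atTop (𝓝 0) := by
        simpa using (tendsto_const_nhds.div_atTop tendsto_natCast_atTop_atTop).mul (ih n (by omega))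
      have h5 := h1.add h4
      rw [add_zero] at h5
      exact h5.congr' ((eventually_gt_atTop 0).mono fun N hN => (mom_succ hN n).symm)

/-- The normalised trace of a polynomial in the GOE matrix. -/
noncomputable def trP (p : ℝ[X]) (g : Fin N × Fin N → ℝ) : ℝ := (aeval (goe N g) p).trace / N

theorem trP_eq (p : ℝ[X]) (g : Fin N × Fin N → ℝ) :
    trP p g = ∑ i ∈ range (p.natDegree + 1), p.coeff i * trM i g := by
  rw [trP, trace_aeval]
  simp only [trM_eq, Polynomial.eval_eq_sum_range, mul_div_assoc', mul_sum, ← sum_div]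
  rw [sum_comm]

theorem grow_trP (p : ℝ[X]) : Grow (trP (N := N) p) := by
  have h := grow_sum (range (p.natDegree + 1)) (F := fun i g => p.coeff i * trM (N := N) i g)
    fun i _ => (grow_trM i).const_mul _
  simpa only [← trP_eq] using h

theorem integral_trP (p : ℝ[X]) :
    ∫ g, trP (N := N) p g ∂stdPi (Fin N × Fin N) = ∑ i ∈ range (p.natDegree + 1), p.coeff i * mom N i := by
  simp only [trP_eq]
  rw [integral_finsetSum _ fun i _ => ((grow_trM i).const_mul _).integrable]
  simp only [integral_const_mul, mom]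

theorem integral_semi_poly (p : ℝ[X]) :
    ∫ t, p.eval t ∂semi = ∑ i ∈ range (p.natDegree + 1), p.coeff i * scMom i := by
  have := isProb_semi
  have hi : ∀ i : ℕ, Integrable (fun t : ℝ => t ^ i) semi := fun i =>
    Integrable.of_bound (by fun_prop) (2 ^ i) (semi_support.mono fun t ht => by
      rw [norm_eq_abs, abs_pow]
      exact pow_le_pow_left₀ (abs_nonneg _) (abs_le.2 ht) i)
  simp only [Polynomial.eval_eq_sum_range]
  rw [integral_finsetSum _ fun i _ => (hi i).const_mul _]
  simp only [integral_const_mul, scMom]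

/-- The mean traces of a polynomial converge to its semicircle integral. -/
theorem tendsto_trP (p : ℝ[X]) :
    Tendsto (fun N => ∫ g, trP (N := N) p g ∂stdPi (Fin N × Fin N)) atTop (𝓝 (∫ t, p.eval t ∂semi)) := by
  simp only [integral_trP, integral_semi_poly]
  exact tendsto_finsetSum _ fun i _ => (tendsto_mom i).const_mul _

/-- The traces of a polynomial do not fluctuate. -/
theorem exists_var_trP_le (p : ℝ[X]) : ∃ C : ℝ, 0 ≤ C ∧ ∀ N : ℕ, 0 < N →
    ∫ g, (trP (N := N) p g - ∫ h, trP (N := N) p h ∂stdPi (Fin N × Fin N)) ^ 2 ∂stdPi (Fin N × Fin N)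
      ≤ C / (N : ℝ) ^ 2 := by
  set n := p.natDegree + 1
  refine ⟨n * ∑ i ∈ range n, p.coeff i ^ 2 * (6 * (i : ℝ) ^ 2 * momBd (i - 1)), mul_nonneg (Nat.cast_nonneg _)
    (sum_nonneg fun i _ => mul_nonneg (sq_nonneg _) (mul_nonneg (by positivity) (momBd_nonneg _))),
    fun N hN => ?_⟩
  have hg : ∀ i, Grow fun g => (p.coeff i * (trM (N := N) i g - mom N i)) ^ 2 := fun i =>
    (((grow_trM i).sub (grow_const _)).const_mul _).sq
  calc ∫ g, (trP (N := N) p g - ∫ h, trP (N := N) p h ∂stdPi (Fin N × Fin N)) ^ 2 ∂stdPi (Fin N × Fin N)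
      ≤ ∫ g, (n : ℝ) * ∑ i ∈ range n, (p.coeff i * (trM (N := N) i g - mom N i)) ^ 2 ∂stdPi (Fin N × Fin N) := by
        refine integral_mono ((grow_trP p).sub (grow_const _)).sq.integrable
          ((grow_sum _ fun i _ => hg i).const_mul _).integrable fun g => ?_
        simp only [trP_eq p g, integral_trP, ← sum_sub_distrib, ← mul_sub]
        have h := sq_sum_le_card_mul_sum_sq (s := range n) (f := fun i => p.coeff i * (trM i g - mom N i))
        rwa [card_range] at h
    _ = (n : ℝ) * ∑ i ∈ range n, p.coeff i ^ 2 * ∫ g, (trM (N := N) i g - mom N i) ^ 2 ∂stdPi (Fin N × Fin N) := by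
        rw [integral_const_mul, integral_finsetSum _ fun i _ => (hg i).integrable]
        simp only [mul_pow, integral_const_mul]
    _ ≤ (n : ℝ) * ∑ i ∈ range n, p.coeff i ^ 2 * (6 * (i : ℝ) ^ 2 * momBd (i - 1) / (N : ℝ) ^ 2) :=
        mul_le_mul_of_nonneg_left (sum_le_sum fun i _ =>
          mul_le_mul_of_nonneg_left (var_trM_le' hN i) (sq_nonneg _)) (Nat.cast_nonneg _)
    _ = _ := by rw [mul_div_assoc, sum_div]; simp only [mul_div_assoc]

theorem tendsto_var_trP (p : ℝ[X]) :
    Tendsto (fun N => ∫ g, (trP (N := N) p g - ∫ h, trP (N := N) p h ∂stdPi (Fin N × Fin N)) ^ 2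
      ∂stdPi (Fin N × Fin N)) atTop (𝓝 0) := by
  obtain ⟨C, -, h⟩ := exists_var_trP_le p
  exact squeeze_zero' (.of_forall fun N => integral_nonneg fun g => sq_nonneg _)
    ((eventually_gt_atTop 0).mono h) (tendsto_inv_sq C)

end Vale.Agent.P146.Goe
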