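import Vale.Agent.P146.Goe.Spec
import Vale.Agent.P150.Fast.GaussCompare

/-!
# P146: no outliers of the GOE matrix

The quadratic form at unit vectors, with one more Gaussian, is compared with a linear family of the
same variances by Slepian's inequality in its smooth form.
-/

open MeasureTheory ProbabilityTheory Real Finset Matrix Filter Topology

namespace Vale.Agent.P146.Goe

open P150 (stdPi)
open P150.Fast (angle compare_sigmoid)

variable {N n : ℕ}

/-- The quadratic form. -/
noncomputable def form (u : Fin N → ℝ) (g : Fin N × Fin N → ℝ) : ℝ := u ⬝ᵥ (goe N g *ᵥ u)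

theorem continuous_form (u : Fin N → ℝ) : Continuous (form u) := by
  unfold form goe dotProduct mulVec
  fun_prop

theorem form_eq (u : Fin N → ℝ) (g : Fin N × Fin N → ℝ) :
    form u g = 2 / √(2 * N) * ∑ p : Fin N × Fin N, g p * (u p.1 * u p.2) := by
  simp only [form, dotProduct, mulVec, goe, mul_sum]
  rw [Fintype.sum_prod_type]
  have h1 : ∀ i j, u i * ((g (i, j) + g (j, i)) / √(2 * (N : ℝ)) * u j)
      = g (i, j) * (u i * u j) / √(2 * (N : ℝ)) + g (j, i) * (u j * u i) / √(2 * (N : ℝ)) := fun i j => by ring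
  simp only [h1, sum_add_distrib]
  rw [sum_comm (f := fun i j => g (j, i) * (u j * u i) / √(2 * (N : ℝ))), ← sum_add_distrib]
  refine sum_congr rfl fun i _ => ?_
  rw [← sum_add_distrib]
  exact sum_congr rfl fun j _ => by ring

/-- The squared size exceeds its mean by a factor with probability of order one over the number. -/
theorem sqnorm_tail {a : ℝ} (ha : 0 < a) (hN : 0 < N) :
    (stdPi (Fin N)).real {h | (1 + a) * N < ∑ i, h i ^ 2} ≤ 12 / (a ^ 2 * N) := by
  set P := stdPi (Fin N)
  have hN' : (0 : ℝ) < N := by exact_mod_cast hN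
  have hf : Grow fun h : Fin N → ℝ => ∑ i, h i ^ 2 := grow_sum _ fun i _ => (grow_coord i).sq
  have hd : HasGrad (fun h : Fin N → ℝ => ∑ i, h i ^ 2) fun h i => 2 * h i := fun c c' t hc => by
    refine (HasDerivAt.fun_sum fun i _ => (hc i).fun_pow 2).congr_deriv (sum_congr rfl fun i _ => ?_)
    push_cast
    ring
  have h1 : ∀ i, ∫ h, h i ^ 2 ∂P = (1 : ℝ) := fun i => by
    simpa [pow_two] using integral_coord_mul (κ := Fin N) i i
  have hmean : ∫ h, ∑ i, h i ^ 2 ∂P = N := by
    rw [integral_finsetSum _ fun i _ => (grow_coord i).sq.integrable, sum_congr rfl fun i _ => h1 i]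
    simp
  have hv := var_le_grad hf (fun i => (grow_coord i).const_mul 2)
    (fun i => (continuous_apply i).const_mul 2) hd
  rw [hmean] at hv
  have hs : ∑ i, ∫ h, (2 * h i) ^ 2 ∂P = 4 * (N : ℝ) := by
    have e : ∀ i, ∫ h, (2 * h i) ^ 2 ∂P = 4 := fun i => by
      simp only [mul_pow]; rw [integral_const_mul, h1]; norm_num
    rw [sum_congr rfl fun i _ => e i]
    simp [mul_comm]
  rw [hs] at hv
  have hsub : {h : Fin N → ℝ | (1 + a) * N < ∑ i, h i ^ 2}
      ⊆ {h | (a * N) ^ 2 ≤ (∑ i, h i ^ 2 - (N : ℝ)) ^ 2} := by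
    intro h hh
    have hh : (1 + a) * (N : ℝ) < ∑ i, h i ^ 2 := hh
    show (a * N) ^ 2 ≤ (∑ i, h i ^ 2 - (N : ℝ)) ^ 2
    exact pow_le_pow_left₀ (by positivity) (by linarith) 2
  have h2 := mul_meas_ge_le_integral_of_nonneg
    (ae_of_all _ fun h : Fin N → ℝ => sq_nonneg (∑ i, h i ^ 2 - (N : ℝ)))
    (hf.sub (grow_const _)).sq.integrable ((a * N) ^ 2)
  have h3 := (mul_le_mul_of_nonneg_left (measureReal_mono (μ := P) hsub) (sq_nonneg (a * N))).trans (h2.trans hv)
  rw [le_div_iff₀ (by positivity)]
  refine le_of_mul_le_mul_right ?_ hN'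
  linarith

/-- The coefficients of the two families. -/
noncomputable def fam (L : ℝ) (u : Fin (n + 1) → Fin N → ℝ) (x : Fin (n + 1)) :
    ((Fin N × Fin N) ⊕ Unit) ⊕ Fin N → ℝ :=
  Sum.elim (Sum.elim (fun p => L * (2 / √(2 * N)) * (u x p.1 * u x p.2)) fun _ => L * (2 / √(2 * N)))
    fun i => L * (2 / √(N : ℝ)) * u x i

theorem fam_cov (hN : 0 < N) (L : ℝ) (u : Fin (n + 1) → Fin N → ℝ) (x y : Fin (n + 1)) :
    ∑ a, fam L u x (.inl a) * fam L u y (.inl a) = L ^ 2 * (2 / N) * ((∑ i, u x i * u y i) ^ 2 + 1) ∧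
      ∑ b, fam L u x (.inr b) * fam L u y (.inr b) = L ^ 2 * (4 / N) * ∑ i, u x i * u y i := by
  have hN' : (0 : ℝ) < N := by exact_mod_cast hN
  have h2 : (2 / √(2 * (N : ℝ))) ^ 2 = 2 / N := by
    rw [div_pow, sq_sqrt (by positivity)]; field_simp
  constructor
  · simp only [fam, Sum.elim_inl, Fintype.sum_sum_type, Sum.elim_inr, univ_unique, sum_singleton,
      Fintype.sum_prod_type]
    rw [mul_add, mul_one, ← h2, pow_two (∑ i, u x i * u y i), sum_mul_sum, mul_sum]
    congr 1
    · exact sum_congr rfl fun i _ => by rw [mul_sum]; exact sum_congr rfl fun j _ => by ring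
    · ring
  · simp only [fam, Sum.elim_inr, mul_sum]
    refine sum_congr rfl fun i _ => ?_
    rw [show L * (2 / √(N : ℝ)) * u x i * (L * (2 / √(N : ℝ)) * u y i)
      = L ^ 2 * (2 / √(N : ℝ)) ^ 2 * (u x i * u y i) by ring, div_pow, sq_sqrt hN'.le]
    norm_num

/-- The first coordinates of the joint array. -/
theorem mp_arr : MeasurePreserving
    (fun (w : ((Fin N × Fin N) ⊕ Unit) ⊕ Fin N → ℝ) p => w (.inl (.inl p)))
    (stdPi (((Fin N × Fin N) ⊕ Unit) ⊕ Fin N)) (stdPi (Fin N × Fin N)) := by
  have h1 := measurePreserving_sumPiEquivProdPi fun _ : ((Fin N × Fin N) ⊕ Unit) ⊕ Fin N => P150.std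
  have h2 := measurePreserving_fst (μ := stdPi ((Fin N × Fin N) ⊕ Unit)) (ν := stdPi (Fin N))
  have h3 := measurePreserving_sumPiEquivProdPi fun _ : (Fin N × Fin N) ⊕ Unit => P150.std
  have h4 := measurePreserving_fst (μ := stdPi (Fin N × Fin N)) (ν := stdPi Unit)
  exact (h4.comp h3).comp (h2.comp h1)

theorem mp_lin : MeasurePreserving
    (fun (w : ((Fin N × Fin N) ⊕ Unit) ⊕ Fin N → ℝ) i => w (.inr i))
    (stdPi (((Fin N × Fin N) ⊕ Unit) ⊕ Fin N)) (stdPi (Fin N)) := by
  have h1 := measurePreserving_sumPiEquivProdPi fun _ : ((Fin N × Fin N) ⊕ Unit) ⊕ Fin N => P150.std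
  have h2 := measurePreserving_snd (μ := stdPi ((Fin N × Fin N) ⊕ Unit)) (ν := stdPi (Fin N))
  exact h2.comp h1

/-- Finitely many unit vectors. -/
theorem finite_tail (hN : 0 < N) (u : Fin (n + 1) → Fin N → ℝ) (hu : ∀ x, ∑ i, u x i ^ 2 = 1)
    {a : ℝ} (ha : 0 < a) :
    (stdPi (Fin N × Fin N)).real {g | ∃ x, 2 + 4 * a < form (u x) g} ≤ 24 / (a ^ 2 * N) := by
  have hN' : (0 : ℝ) < N := by exact_mod_cast hN
  set Ω := ((Fin N × Fin N) ⊕ Unit) ⊕ Fin N
  set P := stdPi Ω
  set B := {w : Ω → ℝ | ∃ x, 2 + 4 * a < form (u x) fun p => w (.inl (.inl p))}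
  set Z := {w : Ω → ℝ | 0 ≤ w (.inl (.inr ()))}
  set bad := {w : Ω → ℝ | (1 + a) * N < ∑ i, w (.inr i) ^ 2}
  have hBm : MeasurableSet B := by
    simp only [B, Set.setOf_exists]
    exact MeasurableSet.iUnion fun x => measurableSet_lt measurable_const
      ((continuous_form (u x)).measurable.comp mp_arr.measurable)
  have hZm : MeasurableSet Z := measurableSet_le measurable_const (measurable_pi_apply _)
  have hbm : MeasurableSet bad := measurableSet_lt measurable_const (by fun_prop)
  have hbad : P.real bad ≤ 12 / (a ^ 2 * N) := by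
    refine le_of_eq_of_le ?_ (sqnorm_tail ha hN)
    have hh : MeasurableSet {h : Fin N → ℝ | (1 + a) * (N : ℝ) < ∑ i, h i ^ 2} :=
      measurableSet_lt measurable_const (by fun_prop)
    exact mp_lin.measureReal_preimage hh.nullMeasurableSet
  have hhalf : P.real B ≤ 2 * P.real (B ∩ Z) := by
    classical
    set D : Matrix Ω Ω ℝ := diagonal fun o => if o = .inl (.inr ()) then -1 else 1
    have hD : Dᵀ * D = 1 := by
      simp only [D, diagonal_transpose, diagonal_mul_diagonal, ← diagonal_one]
      congr 1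
      funext o
      split_ifs <;> simp
    have hm := P166.measurePreserving_orth D hD
    have e0 : ∀ p : Fin N × Fin N, (Sum.inl (Sum.inl p) : Ω) ≠ Sum.inl (Sum.inr ()) := fun p h =>
      Sum.inl_ne_inr (Sum.inl.inj h)
    have e : (fun w => D *ᵥ w) ⁻¹' (B ∩ Z) = B ∩ {w | w (.inl (.inr ())) ≤ 0} := by
      ext w
      simp [B, Z, D, mulVec_diagonal, e0]
    have h1 := hm.measureReal_preimage (hBm.inter hZm).nullMeasurableSet
    rw [e] at h1
    calc P.real B ≤ P.real ((B ∩ Z) ∪ (B ∩ {w | w (.inl (.inr ())) ≤ 0})) :=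
          measureReal_mono fun w hw => (le_total 0 (w (.inl (.inr ())))).imp (⟨hw, ·⟩) (⟨hw, ·⟩)
      _ ≤ _ := measureReal_union_le _ _
      _ = _ := by rw [h1]; ring
  have hcmp : ∀ L : ℝ, 0 ≤ L →
      sigmoid (L * a) * P.real (B ∩ Z) ≤ P.real bad + sigmoid (log (n + 1) - L * a) := fun L hL => by
    set t := L * (2 + 3 * a)
    have hc := compare_sigmoid (fam L u)
      (fun x => by
        simp only [pow_two]
        rw [(fam_cov hN L u x x).1, (fam_cov hN L u x x).2]
        simp only [← pow_two, hu x]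
        ring)
      (fun x y => by
        rw [(fam_cov hN L u x y).1, (fam_cov hN L u x y).2]
        have := mul_nonneg (show 0 ≤ L ^ 2 * (2 / (N : ℝ)) by positivity)
          (sq_nonneg ((∑ i, u x i * u y i) - 1))
        linear_combination this) t
    have hsig : ∀ θ : ℝ, Integrable (fun w : Ω → ℝ => sigmoid (P150.press (fam L u) (angle θ) w - t)) P :=
      fun θ => Integrable.of_bound
        (continuous_sigmoid.measurable.comp ((P150.measurable_press _ _).sub_const t)).aestronglyMeasurable 1
        (ae_of_all _ fun w => by rw [norm_eq_abs, abs_of_nonneg (sigmoid_nonneg _)]; exact sigmoid_le_one _)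
    have h0 : sigmoid (L * a) * P.real (B ∩ Z)
        ≤ ∫ w, sigmoid (P150.press (fam L u) (angle 0) w - t) ∂P := by
      rw [mul_comm]
      refine le_trans (le_of_eq ?_) (integral_mono
        ((integrable_const (sigmoid (L * a))).indicator (hBm.inter hZm)) (hsig 0) fun w => ?_)
      · rw [integral_indicator_const _ (hBm.inter hZm), smul_eq_mul]
      · by_cases hw : w ∈ B ∩ Z
        swap
        · rw [Set.indicator_of_notMem hw]; exact sigmoid_nonneg _
        rw [Set.indicator_of_mem hw]
        obtain ⟨⟨x, hx⟩, hz⟩ := hw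
        refine sigmoid_le ?_
        have hex : P150.expo (fam L u) (angle 0) w x
            = L * (form (u x) (fun p => w (.inl (.inl p))) + 2 / √(2 * N) * w (.inl (.inr ()))) := by
          simp only [P150.expo, angle, fam, Fintype.sum_sum_type, Sum.elim_inl, Sum.elim_inr, cos_zero,
            sin_zero, zero_mul, sum_const_zero, add_zero, one_mul, univ_unique, sum_singleton, form_eq]
          rw [mul_add, mul_sum, mul_sum]
          congr 1
          · exact sum_congr rfl fun p _ => by ring
          · simp; ring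
        have hle : P150.expo (fam L u) (angle 0) w x ≤ P150.press (fam L u) (angle 0) w :=
          (log_exp _).symm.le.trans (log_le_log (exp_pos _) (single_le_sum
            (f := fun y => exp (P150.expo (fam L u) (angle 0) w y)) (fun y _ => (exp_pos _).le) (mem_univ x)))
        have h5 : 0 ≤ 2 / √(2 * (N : ℝ)) * w (.inl (.inr ())) := mul_nonneg (by positivity) hz
        have h6 := mul_le_mul_of_nonneg_left (show 2 + 4 * a ≤ form (u x) (fun p => w (.inl (.inl p)))
          + 2 / √(2 * (N : ℝ)) * w (.inl (.inr ())) by linarith) hL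
        rw [hex] at hle
        simp only [t]
        linarith
    have h1 : ∫ w, sigmoid (P150.press (fam L u) (angle (π / 2)) w - t) ∂P
        ≤ P.real bad + sigmoid (log (n + 1) - L * a) := by
      have hi : Integrable (fun w => bad.indicator (fun _ => (1 : ℝ)) w + sigmoid (log (n + 1) - L * a)) P :=
        ((integrable_const (1 : ℝ)).indicator hbm).add (integrable_const _)
      refine (integral_mono (hsig _) hi fun w => ?_).trans (le_of_eq ?_)
      · by_cases hw : w ∈ bad
        · rw [Set.indicator_of_mem hw]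
          linarith [sigmoid_le_one (P150.press (fam L u) (angle (π / 2)) w - t),
            sigmoid_nonneg (log (n + 1) - L * a)]
        · rw [Set.indicator_of_notMem hw, zero_add]
          refine sigmoid_le ?_
          have hw : ∑ i, w (.inr i) ^ 2 ≤ (1 + a) * N := not_lt.1 hw
          have hex : ∀ x, P150.expo (fam L u) (angle (π / 2)) w x ≤ L * (2 + 2 * a) := fun x => by
            have e : P150.expo (fam L u) (angle (π / 2)) w x
                = L * (2 / √(N : ℝ)) * ∑ i, w (.inr i) * u x i := by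
              simp only [P150.expo, angle, fam, Fintype.sum_sum_type, Sum.elim_inl, Sum.elim_inr,
                cos_pi_div_two, sin_pi_div_two, zero_mul, sum_const_zero, zero_add, one_mul, mul_sum]
              exact sum_congr rfl fun i _ => by ring
            have hcs : (∑ i, w (.inr i) * u x i) ^ 2 ≤ ((1 + a) * √(N : ℝ)) ^ 2 := by
              refine (sum_mul_sq_le_sq_mul_sq _ _ _).trans ?_
              rw [hu x, mul_one, mul_pow, sq_sqrt hN'.le]
              refine hw.trans (mul_le_mul_of_nonneg_right ?_ hN'.le)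
              linarith [mul_nonneg ha.le ha.le]
            have hb := (le_abs_self _).trans (abs_le_of_sq_le_sq hcs (by positivity))
            rw [e]
            refine (mul_le_mul_of_nonneg_left hb (by positivity)).trans (le_of_eq ?_)
            field_simp
          have hle : P150.press (fam L u) (angle (π / 2)) w ≤ log (n + 1) + L * (2 + 2 * a) := by
            rw [← log_exp (L * (2 + 2 * a)), ← log_mul (by positivity) (exp_pos _).ne']
            refine log_le_log (P150.sum_exp_pos _ _ _)
              ((sum_le_card_nsmul univ _ (exp (L * (2 + 2 * a))) fun x _ => exp_le_exp.2 (hex x)).trans_eq ?_)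
            simp
          simp only [t]
          linarith
      · rw [integral_add ((integrable_const _).indicator hbm) (integrable_const _),
          integral_indicator_const _ hbm, integral_const, probReal_univ, smul_eq_mul, mul_one, one_smul]
    exact (h0.trans hc).trans h1
  have hlim : P.real (B ∩ Z) ≤ P.real bad := by
    have t1 : Tendsto (fun L : ℝ => sigmoid (L * a) * P.real (B ∩ Z)) atTop (𝓝 (1 * P.real (B ∩ Z))) :=
      (tendsto_sigmoid_atTop.comp (tendsto_id.atTop_mul_const ha)).mul_const _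
    have t2 : Tendsto (fun L : ℝ => P.real bad + sigmoid (log (n + 1) - L * a)) atTop (𝓝 (P.real bad + 0)) := by
      refine tendsto_const_nhds.add (tendsto_sigmoid_atBot.comp ?_)
      exact (tendsto_atBot_add_const_left atTop (log ((n : ℝ) + 1))
        (tendsto_neg_atTop_atBot.comp (tendsto_id.atTop_mul_const ha))).congr
          fun L => by simp [sub_eq_add_neg]
    simpa using le_of_tendsto_of_tendsto t1 t2 ((eventually_ge_atTop 0).mono hcmp)
  have hmarg : (stdPi (Fin N × Fin N)).real {g | ∃ x, 2 + 4 * a < form (u x) g} = P.real B := by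
    refine (mp_arr.measureReal_preimage ?_).symm
    simp only [Set.setOf_exists]
    exact (MeasurableSet.iUnion fun x =>
      measurableSet_lt measurable_const (continuous_form (u x)).measurable).nullMeasurableSet
  rw [hmarg, show 24 / (a ^ 2 * (N : ℝ)) = 2 * (12 / (a ^ 2 * N)) by ring]
  linarith

/-- One side of the edge. -/
theorem sphere_tail (hN : 0 < N) {a : ℝ} (ha : 0 < a) :
    (stdPi (Fin N × Fin N)).real {g | ∃ u : Fin N → ℝ, ∑ i, u i ^ 2 = 1 ∧ 2 + 4 * a < form u g}
      ≤ 24 / (a ^ 2 * N) := by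
  set S := {u : Fin N → ℝ // ∑ i, u i ^ 2 = 1}
  have : Nonempty S := ⟨⟨fun i => if i = ⟨0, hN⟩ then 1 else 0, by simp [ite_pow]⟩⟩
  set s : ℕ → S := TopologicalSpace.denseSeq S
  set E : ℕ → Set (Fin N × Fin N → ℝ) := fun n => {g | ∃ x : Fin (n + 1), 2 + 4 * a < form (s x).1 g}
  have hmono : Monotone E := fun n m h g ⟨x, hx⟩ => ⟨x.castLE (by omega), hx⟩
  have hsub : {g | ∃ u : Fin N → ℝ, ∑ i, u i ^ 2 = 1 ∧ 2 + 4 * a < form u g} ⊆ ⋃ n, E n := by
    rintro g ⟨u, hu, hg⟩
    have hc : Continuous fun v : S => form v.1 g := by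
      simp only [form_eq]
      exact continuous_const.mul (continuous_finsetSum _ fun p _ => continuous_const.mul
        (((continuous_apply p.1).comp continuous_subtype_val).mul
          ((continuous_apply p.2).comp continuous_subtype_val)))
    obtain ⟨m, hm⟩ := (TopologicalSpace.denseRange_denseSeq S).exists_mem_open
      (isOpen_lt continuous_const hc) ⟨⟨u, hu⟩, hg⟩
    exact Set.mem_iUnion.2 ⟨m, ⟨⟨m, Nat.lt_succ_self m⟩, hm⟩⟩
  refine (measureReal_mono hsub).trans ?_
  refine ENNReal.toReal_le_of_le_ofReal (by positivity) ?_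
  rw [hmono.measure_iUnion]
  refine iSup_le fun n => ?_
  rw [← ofReal_measureReal]
  exact ENNReal.ofReal_le_ofReal (finite_tail hN _ (fun x => (s x).2) ha)

/-- No eigenvalue outside a neighbourhood of `[-2, 2]`. -/
theorem edge_tail (hN : 0 < N) {a : ℝ} (ha : 0 < a) :
    (stdPi (Fin N × Fin N)).real {g | ∃ i, 2 + 4 * a < |lamG g i|} ≤ 48 / (a ^ 2 * N) := by
  set T := {g : Fin N × Fin N → ℝ | ∃ u : Fin N → ℝ, ∑ i, u i ^ 2 = 1 ∧ 2 + 4 * a < form u g}
  have hsub : {g : Fin N × Fin N → ℝ | ∃ i, 2 + 4 * a < |lamG g i|} ⊆ T ∪ (fun g => -g) ⁻¹' T := by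
    rintro g ⟨i, hi⟩
    obtain ⟨V, h1, -, h3⟩ := exists_spectral g
    set u : Fin N → ℝ := fun j => V i j
    have hu : ∑ j, u j ^ 2 = 1 := by
      have := congrFun (congrFun h1 i) i
      simpa [mul_apply, pow_two, u] using this
    have e : form u g = lamG g i := by
      have h4 : (V * goe N g * Vᵀ) i i = lamG g i := by
        rw [h3, mul_assoc Vᵀ, ← mul_assoc V Vᵀ, h1, one_mul, mul_assoc (diagonal _), h1, mul_one,
          diagonal_apply_eq]
      rw [← h4]
      simp only [form, dotProduct, mulVec, mul_apply, transpose_apply, u, sum_mul, mul_sum]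
      rw [sum_comm]
      exact sum_congr rfl fun j _ => sum_congr rfl fun l _ => by ring
    rcases lt_or_ge 0 (lamG g i) with h | h
    · exact Or.inl ⟨u, hu, by rw [e]; rwa [abs_of_pos h] at hi⟩
    · refine Or.inr ⟨u, hu, ?_⟩
      have en : form u (-g) = -form u g := by simp [form_eq, sum_neg_distrib]
      rw [en, e]
      rwa [abs_of_nonpos h] at hi
  refine (measureReal_mono hsub).trans ((measureReal_union_le _ _).trans ?_)
  have hT : MeasurableSet T := by
    have : T = ⋃ u ∈ {u : Fin N → ℝ | ∑ i, u i ^ 2 = 1}, {g | 2 + 4 * a < form u g} := by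
      ext g; simp [T]
    rw [this]
    exact (isOpen_biUnion fun u _ => isOpen_lt continuous_const (continuous_form u)).measurableSet
  have hneg : MeasurePreserving (fun g : Fin N × Fin N → ℝ => -g) (stdPi (Fin N × Fin N))
      (stdPi (Fin N × Fin N)) := by
    have h := P166.measurePreserving_orth (κ := Fin N × Fin N) (-1) (by simp)
    simpa [Matrix.neg_mulVec] using h
  rw [hneg.measureReal_preimage hT.nullMeasurableSet]
  have h := sphere_tail hN ha
  rw [show 48 / (a ^ 2 * (N : ℝ)) = 2 * (24 / (a ^ 2 * N)) by ring]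
  linarith

end Vale.Agent.P146.Goe
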