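import Vale.Agent.P146.Goe.Limit
import Vale.Agent.P146.Goe.Edge
import Mathlib.Topology.ContinuousMap.Weierstrass

/-!
# P146: the spectrum of the GOE matrix is admissible for the semicircle law

A set of test conditions on the eigenvalues holds with probability `1 - O(1/N)`; along any
sequence with arbitrarily fine conditions the spectrum is admissible.
-/

open MeasureTheory Real Finset Matrix Polynomial Filter Topology

namespace Vale.Agent.P146.Goe

open P150 (stdPi)
open P166 (Admissible IsHaarOrth press exists_isHaarOrth)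

variable {N : ℕ}

/-- The conditions of level `k`. -/
def Good (k : ℕ) (x : Fin N → ℝ) : Prop :=
  (∀ i, |x i| ≤ 2 + 1 / ((k : ℝ) + 1)) ∧
    ∀ q ∈ range (k + 1), |(∑ i, x i ^ q) / N - scMom q| ≤ 1 / ((k : ℝ) + 1)

theorem Good.mono {k k' : ℕ} (h : k' ≤ k) {x : Fin N → ℝ} (hx : Good k x) : Good k' x := by
  have hle : 1 / ((k : ℝ) + 1) ≤ 1 / ((k' : ℝ) + 1) :=
    one_div_le_one_div_of_le (by positivity) (by exact_mod_cast Nat.succ_le_succ h)
  exact ⟨fun i => (hx.1 i).trans (by linarith), fun q hq =>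
    (hx.2 q (mem_range.2 (by have := mem_range.1 hq; omega))).trans hle⟩

/-- The conditions fail with probability of order one over the size. -/
theorem exists_bad_le (k : ℕ) : ∃ C : ℝ, 0 ≤ C ∧ ∀ᶠ N in atTop,
    (stdPi (Fin N × Fin N)).real {g | ¬ Good k (lamG g)} ≤ C / N := by
  set η := 1 / ((k : ℝ) + 1)
  have hη : 0 < η := by positivity
  refine ⟨48 / (η / 4) ^ 2 + ∑ q ∈ range (k + 1), 6 * (q : ℝ) ^ 2 * momBd (q - 1) / (η / 2) ^ 2,
    add_nonneg (by positivity) (sum_nonneg fun q _ => div_nonneg (mul_nonneg (by positivity) (momBd_nonneg _))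
      (sq_nonneg _)), ?_⟩
  have hev : ∀ᶠ N in atTop, ∀ q ∈ range (k + 1), |mom N q - scMom q| ≤ η / 2 := by
    refine (eventually_all_finset _).2 fun q _ => ?_
    filter_upwards [(Metric.tendsto_nhds.1 (tendsto_mom q)) (η / 2) (by positivity)] with N hN
    rw [Real.dist_eq] at hN
    exact hN.le
  filter_upwards [hev, eventually_gt_atTop 0] with N hmom hN
  have hN1 : (1 : ℝ) ≤ N := by exact_mod_cast hN
  have hsub : {g : Fin N × Fin N → ℝ | ¬ Good k (lamG g)} ⊆ {g | ∃ i, 2 + 4 * (η / 4) < |lamG g i|}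
      ∪ ⋃ q ∈ range (k + 1), {g | (η / 2) ^ 2 ≤ (trM q g - mom N q) ^ 2} := by
    intro g hg
    by_contra hc
    simp only [Set.mem_union, Set.mem_iUnion, Set.mem_setOf_eq, not_or, not_exists, not_lt, not_le] at hc
    refine hg ⟨fun i => (hc.1 i).trans (le_of_eq (by ring)), fun q hq => ?_⟩
    have h1 := abs_lt_of_sq_lt_sq (hc.2 q hq) (by positivity)
    rw [← trM_eq]
    linarith [abs_sub_le (trM q g) (mom N q) (scMom q), hmom q hq]
  refine (measureReal_mono hsub).trans ((measureReal_union_le _ _).trans ?_)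
  rw [add_div, sum_div]
  refine add_le_add ((edge_tail hN (by positivity)).trans (le_of_eq (by ring))) ?_
  refine (measureReal_biUnion_finset_le _ _).trans (sum_le_sum fun q _ => ?_)
  have h := (mul_meas_ge_le_integral_of_nonneg (ae_of_all _ fun g => sq_nonneg (trM q g - mom N q))
    ((grow_trM q).sub (grow_const _)).sq.integrable ((η / 2) ^ 2)).trans (var_trM_le' hN q)
  have hK : 0 ≤ 6 * (q : ℝ) ^ 2 * momBd (q - 1) := mul_nonneg (by positivity) (momBd_nonneg _)
  have h2 : 6 * (q : ℝ) ^ 2 * momBd (q - 1) / (N : ℝ) ^ 2 ≤ 6 * (q : ℝ) ^ 2 * momBd (q - 1) / N :=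
    div_le_div_of_nonneg_left hK (by positivity) (le_self_pow₀ hN1 two_ne_zero)
  rw [le_div_iff₀ (show (0 : ℝ) < N by linarith), le_div_iff₀ (by positivity : (0 : ℝ) < (η / 2) ^ 2)]
  have h3 := (le_div_iff₀ (show (0 : ℝ) < N by linarith)).1 (h.trans h2)
  linarith

theorem exists_good (k : ℕ) : ∀ᶠ N in atTop, ∃ x : Fin N → ℝ, Good k x := by
  obtain ⟨C, -, hC⟩ := exists_bad_le k
  filter_upwards [hC, (tendsto_natCast_atTop_atTop (R := ℝ)).eventually (eventually_gt_atTop (max C 0))]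
    with N hN hNC
  by_contra hne
  push Not at hne
  have h1 : {g : Fin N × Fin N → ℝ | ¬ Good k (lamG g)} = Set.univ := Set.eq_univ_of_forall fun g => hne _
  rw [h1, probReal_univ, le_div_iff₀ ((le_max_right C 0).trans_lt hNC), one_mul] at hN
  linarith [le_max_left C 0]

/-- Fine conditions make the image spectrum admissible. -/
theorem admissible_of_good (f : ℝ[X]) {b : ℝ} (hb : ∀ t ∈ Set.Icc (-2 : ℝ) 2, f.eval t ≤ b)
    {lam : ∀ N, Fin N → ℝ} (hlam : ∀ k, ∀ᶠ N in atTop, Good k (lam N)) :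
    Admissible (semi.map f.eval) b fun N i => f.eval (lam N i) := by
  have := isProb_semi
  have h3 : ∀ᶠ N in atTop, ∀ i, lam N i ∈ Set.Icc (-3 : ℝ) 3 := (hlam 0).mono fun N h i => by
    have := h.1 i
    norm_num at this
    exact abs_le.1 this
  have hmom : ∀ q, Tendsto (fun N => (∑ i, lam N i ^ q) / (N : ℝ)) atTop (𝓝 (scMom q)) := fun q => by
    refine Metric.tendsto_nhds.2 fun ε hε => ?_
    obtain ⟨j, hj⟩ := exists_nat_one_div_lt hε
    filter_upwards [hlam (max j q)] with N h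
    rw [Real.dist_eq]
    refine (h.2 q (mem_range.2 (by omega))).trans_lt (lt_of_le_of_lt ?_ hj)
    exact one_div_le_one_div_of_le (by positivity) (by exact_mod_cast Nat.succ_le_succ (le_max_left j q))
  refine ⟨fun g hg hgb => ?_, fun ε hε => ?_, ?_⟩
  · rw [integral_map f.continuous.measurable.aemeasurable hg.aestronglyMeasurable]
    obtain ⟨B, hB⟩ := hgb
    refine Metric.tendsto_nhds.2 fun ε hε => ?_
    obtain ⟨p, hp⟩ := exists_polynomial_near_of_continuousOn (-3) 3 (fun t => g (f.eval t))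
      (hg.comp f.continuous).continuousOn (ε / 4) (by linarith)
    have hpt : Tendsto (fun N => (∑ i, p.eval (lam N i)) / (N : ℝ)) atTop (𝓝 (∫ t, p.eval t ∂semi)) := by
      rw [integral_semi_poly]
      simp only [Polynomial.eval_eq_sum_range]
      have e : ∀ N : ℕ, (∑ i : Fin N, ∑ q ∈ range (p.natDegree + 1), p.coeff q * lam N i ^ q) / (N : ℝ)
          = ∑ q ∈ range (p.natDegree + 1), p.coeff q * ((∑ i, lam N i ^ q) / N) := fun N => by
        rw [sum_comm, sum_div]
        exact sum_congr rfl fun q _ => by rw [← mul_sum, mul_div_assoc]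
      simp only [e]
      exact tendsto_finsetSum _ fun q _ => (hmom q).const_mul _
    have hint : |∫ t, p.eval t ∂semi - ∫ t, g (f.eval t) ∂semi| ≤ ε / 4 := by
      have i1 : Integrable (fun t => g (f.eval t)) semi :=
        Integrable.of_bound (hg.comp f.continuous).aestronglyMeasurable B (ae_of_all _ fun t => hB _)
      have hae : ∀ᵐ t ∂semi, |p.eval t - g (f.eval t)| ≤ ε / 4 :=
        semi_support.mono fun t ht => (hp t ⟨by linarith [ht.1], by linarith [ht.2]⟩).le
      have i2 : Integrable (fun t => p.eval t - g (f.eval t)) semi :=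
        Integrable.of_bound (p.continuous.sub (hg.comp f.continuous)).aestronglyMeasurable _ hae
      have i3 : Integrable (fun t => p.eval t) semi := (i2.add i1).congr (ae_of_all _ fun t => by simp)
      rw [← integral_sub i3 i1]
      simpa using norm_integral_le_of_norm_le_const (μ := semi) (f := fun t => p.eval t - g (f.eval t)) hae
    filter_upwards [(Metric.tendsto_nhds.1 hpt) (ε / 4) (by linarith), h3, eventually_gt_atTop 0] with N hN h3N hN0
    rw [Real.dist_eq] at hN ⊢
    have hN' : (0 : ℝ) < N := by exact_mod_cast hN0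
    have hd : |(∑ i, g (f.eval (lam N i))) / (N : ℝ) - (∑ i, p.eval (lam N i)) / N| ≤ ε / 4 := by
      rw [← sub_div, ← sum_sub_distrib, abs_div, abs_of_pos hN', div_le_iff₀ hN']
      refine (abs_sum_le_sum_abs _ _).trans ((sum_le_card_nsmul _ _ (ε / 4) fun i _ => ?_).trans_eq ?_)
      · rw [abs_sub_comm]; exact (hp _ (h3N i)).le
      · simp [mul_comm]
    have h1 := abs_le.1 hd
    have h2 := abs_lt.1 hN
    have h4 := abs_le.1 hint
    rw [abs_lt]
    constructor <;> linarith
  · obtain ⟨δ, hδ, hball⟩ := Metric.uniformContinuousOn_iff.1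
      (isCompact_Icc.uniformContinuousOn_of_continuous (f.continuous.continuousOn (s := Set.Icc (-3 : ℝ) 3))) ε hε
    obtain ⟨j, hj⟩ := exists_nat_one_div_lt hδ
    filter_upwards [hlam j, h3] with N h h3N i
    have hx := abs_le.1 (h.1 i)
    set c := max (-2) (min 2 (lam N i)) with hc
    have hc2 : c ∈ Set.Icc (-2 : ℝ) 2 := ⟨le_max_left _ _, max_le (by norm_num) (min_le_left _ _)⟩
    have hdist : dist (lam N i) c < δ := by
      rw [Real.dist_eq]
      refine lt_of_le_of_lt ?_ hj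
      have : (0 : ℝ) ≤ 1 / ((j : ℝ) + 1) := by positivity
      rw [hc, abs_le]
      constructor <;> rcases max_cases (-2 : ℝ) (min 2 (lam N i)) with ⟨e1, e2⟩ | ⟨e1, e2⟩ <;>
        rcases min_cases (2 : ℝ) (lam N i) with ⟨e3, e4⟩ | ⟨e3, e4⟩ <;> linarith
    have h4 := hball _ (h3N i) c ⟨by linarith [hc2.1], by linarith [hc2.2]⟩ hdist
    rw [Real.dist_eq, abs_lt] at h4
    linarith [hb c hc2]
  · obtain ⟨a, ha⟩ := (isCompact_Icc (a := (-3 : ℝ)) (b := 3)).exists_bound_of_continuousOn f.continuous.continuousOn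
    exact ⟨-a, h3.mono fun N h i => (abs_le.1 (ha _ (h i))).1⟩

/-- Convergence of any functional of a spectrum and a measure along every admissible sequence is uniform
over fine conditions. -/
theorem exists_good_uniform_of (f : ℝ[X]) {b l : ℝ}
    (Ψ : ∀ N, (Fin N → ℝ) → Measure (Fin N → Fin N → ℝ) → ℝ)
    (hb : ∀ t ∈ Set.Icc (-2 : ℝ) 2, f.eval t ≤ b)
    (hl : ∀ lam : ∀ N, Fin N → ℝ, Admissible (semi.map f.eval) b lam →
      ∀ m : ∀ N, Measure (Fin N → Fin N → ℝ), (∀ N, IsHaarOrth (m N)) →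
        Tendsto (fun N => Ψ N (lam N) (m N)) atTop (𝓝 l)) {ε : ℝ} (hε : 0 < ε) :
    ∃ k, ∀ᶠ N in atTop, ∀ x : Fin N → ℝ, Good k x → ∀ m : Measure (Fin N → Fin N → ℝ), IsHaarOrth m →
      |Ψ N (fun i => f.eval (x i)) m - l| ≤ ε := by
  classical
  by_contra hne
  simp only [not_exists] at hne
  let Pair : ℕ → ℕ → Prop := fun k N => ∃ x : Fin N → ℝ, ∃ m : Measure (Fin N → Fin N → ℝ),
    Good k x ∧ IsHaarOrth m ∧ ε < |Ψ N (fun i => f.eval (x i)) m - l|
  have hfreq : ∀ k, ∃ᶠ N in atTop, Pair k N := fun k => by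
    refine (not_eventually.1 (hne k)).mono fun N hN => ?_
    push Not at hN
    obtain ⟨x, hx, m, hm, hlt⟩ := hN
    exact ⟨x, m, hx, hm, hlt⟩
  have hnext : ∀ k M, ∃ N, M < N ∧ k ≤ N ∧ Pair k N ∧ ∀ N' ≥ N, ∃ x : Fin N' → ℝ, Good k x := fun k M => by
    obtain ⟨E, hE⟩ := eventually_atTop.1 (exists_good k)
    obtain ⟨N, hN, hP⟩ := frequently_atTop.1 (hfreq k) (max (max (M + 1) k) E)
    simp only [max_le_iff, ge_iff_le] at hN
    exact ⟨N, by omega, hN.1.2, hP, fun N' h => hE N' (le_trans hN.2 h)⟩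
  choose nx hnx1 hnx2 hnx3 hnx4 using hnext
  let φ : ℕ → ℕ := Nat.rec (nx 0 0) fun k prev => nx (k + 1) prev
  have hφm : StrictMono φ := strictMono_nat_of_lt_succ fun k => hnx1 (k + 1) (φ k)
  have hφP : ∀ k, Pair k (φ k) := fun k => by cases k <;> exact hnx3 _ _
  have hφG : ∀ k, ∀ N' ≥ φ k, ∃ x : Fin N' → ℝ, Good k x := fun k => by cases k <;> exact hnx4 _ _
  let ν : ℕ → ℕ := fun (N : ℕ) => @Nat.findGreatest (fun k : ℕ => φ k ≤ N) (fun k => Nat.decLe (φ k) N) N
  have hν : ∀ k, ν (φ k) = k := fun k => by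
    refine le_antisymm ?_ (Nat.le_findGreatest hφm.le_apply le_rfl)
    by_contra h
    push Not at h
    have h1 : φ (ν (φ k)) ≤ φ k := Nat.findGreatest_spec (P := fun j => φ j ≤ φ k) hφm.le_apply le_rfl
    linarith [hφm h]
  have hlevel : ∀ N K, φ K ≤ N → K ≤ ν N ∧ φ (ν N) ≤ N := fun N K h => by
    have hK : K ≤ N := hφm.le_apply.trans h
    exact ⟨Nat.le_findGreatest hK h, Nat.findGreatest_spec (P := fun j => φ j ≤ N) hK h⟩
  let pick : ∀ N, (Fin N → ℝ) × Measure (Fin N → Fin N → ℝ) := fun N =>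
    if h : Pair (ν N) N then (h.choose, h.choose_spec.choose)
    else if h' : ∃ x : Fin N → ℝ, Good (ν N) x then (h'.choose, (exists_isHaarOrth N).choose)
    else (0, (exists_isHaarOrth N).choose)
  have hm : ∀ N, IsHaarOrth (pick N).2 := fun N => by
    simp only [pick]
    split_ifs with h h'
    · exact h.choose_spec.choose_spec.2.1
    · exact (exists_isHaarOrth N).choose_spec
    · exact (exists_isHaarOrth N).choose_spec
  have hgood : ∀ K, ∀ᶠ N in atTop, Good K (pick N).1 := fun K => eventually_atTop.2 ⟨φ K, fun N hN => by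
    obtain ⟨h1, h2⟩ := hlevel N K hN
    simp only [pick]
    split_ifs with h h'
    · exact h.choose_spec.choose_spec.1.mono h1
    · exact h'.choose_spec.mono h1
    · exact absurd (hφG (ν N) N h2) h'⟩
  have hlim := (hl _ (admissible_of_good f hb hgood) _ hm).comp hφm.tendsto_atTop
  obtain ⟨K, hK⟩ := eventually_atTop.1 ((Metric.tendsto_nhds.1 hlim) ε hε)
  have h1 := hK K le_rfl
  have hP : Pair (ν (φ K)) (φ K) := by rw [hν]; exact hφP K
  have h2 := hP.choose_spec.choose_spec.2.2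
  simp only [Function.comp_apply, Real.dist_eq] at h1
  have e : pick (φ K) = (hP.choose, hP.choose_spec.choose) := dif_pos hP
  rw [e] at h1
  linarith

/-- Convergence of the mean pressures along every admissible sequence is uniform over fine conditions. -/
theorem exists_good_uniform (f : ℝ[X]) {β b l : ℝ} (hb : ∀ t ∈ Set.Icc (-2 : ℝ) 2, f.eval t ≤ b)
    (hl : ∀ lam : ∀ N, Fin N → ℝ, Admissible (semi.map f.eval) b lam →
      ∀ m : ∀ N, Measure (Fin N → Fin N → ℝ), (∀ N, IsHaarOrth (m N)) →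
        Tendsto (fun N => ∫ U, press β (lam N) U ∂m N) atTop (𝓝 l)) {ε : ℝ} (hε : 0 < ε) :
    ∃ k, ∀ᶠ N in atTop, ∀ x : Fin N → ℝ, Good k x → ∀ m : Measure (Fin N → Fin N → ℝ), IsHaarOrth m →
      |∫ U, press β (fun i => f.eval (x i)) U ∂m - l| ≤ ε :=
  exists_good_uniform_of f (fun _ x m => ∫ U, press β x U ∂m) hb hl hε

end Vale.Agent.P146.Goe
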