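import Vale.Agent.P146.Goe.Poincare
import Vale.Agent.P146.Pins

/-!
# P146: powers of a GOE matrix

The matrix is the symmetrisation of an array of independent standard normal variables.  Its normalised
traces have gradients, a loop equation and a variance bound.
-/

open MeasureTheory ProbabilityTheory Real Finset Matrix

namespace Vale.Agent.P146.Goe

open P150 (stdPi)

variable {N : ℕ}

theorem goe_transpose (g : Fin N × Fin N → ℝ) : (goe N g)ᵀ = goe N g := by
  ext i j; simp [goe, add_comm]

theorem pow_symm (g : Fin N × Fin N → ℝ) (q : ℕ) (i j : Fin N) : (goe N g ^ q) i j = (goe N g ^ q) j i := by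
  conv_lhs => rw [← goe_transpose g, ← transpose_pow]
  rfl

theorem grow_pow (q : ℕ) (i j : Fin N) : Grow fun g => (goe N g ^ q) i j := by
  induction q generalizing i j with
  | zero =>
    simp only [pow_zero, Matrix.one_apply]
    exact grow_const _
  | succ q ih =>
    simp only [pow_succ, Matrix.mul_apply]
    refine grow_sum _ fun l _ => (ih i l).mul ?_
    simp only [goe, div_eq_mul_inv]
    exact ((grow_coord (l, j)).add (grow_coord (j, l))).mul (grow_const _)

theorem continuous_goe : Continuous (goe N : (Fin N × Fin N → ℝ) → Matrix (Fin N) (Fin N) ℝ) := by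
  refine continuous_matrix fun i j => ?_
  simp only [goe]
  fun_prop

theorem continuous_pow_entry (q : ℕ) (i j : Fin N) : Continuous fun g => (goe N g ^ q) i j :=
  (continuous_goe.pow q).matrix_elem i j

/-- The derivative of a power along a curve. -/
theorem hasDerivAt_pow_entry {c c' : ℝ → Fin N × Fin N → ℝ} {t : ℝ}
    (hc : ∀ p, HasDerivAt (fun u => c u p) (c' t p) t) (q : ℕ) :
    ∀ i j, HasDerivAt (fun u => (goe N (c u) ^ q) i j)
      ((∑ a ∈ range q, goe N (c t) ^ a * goe N (c' t) * goe N (c t) ^ (q - 1 - a)) i j) t := by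
  induction q with
  | zero =>
    intro i j
    simp only [pow_zero, range_zero, sum_empty, Matrix.zero_apply]
    exact hasDerivAt_const t _
  | succ q ih =>
    intro i j
    simp only [pow_succ, Matrix.mul_apply]
    have hM : ∀ l, HasDerivAt (fun u => goe N (c u) l j) (goe N (c' t) l j) t := fun l => by
      simp only [goe]
      exact ((hc _).add (hc _)).div_const _
    refine (HasDerivAt.fun_sum fun l _ => (ih i l).fun_mul (hM l)).congr_deriv ?_
    have e : ∑ a ∈ range (q + 1), goe N (c t) ^ a * goe N (c' t) * goe N (c t) ^ (q + 1 - 1 - a)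
        = (∑ a ∈ range q, goe N (c t) ^ a * goe N (c' t) * goe N (c t) ^ (q - 1 - a)) * goe N (c t)
          + goe N (c t) ^ q * goe N (c' t) := by
      rw [sum_range_succ, sum_mul, Nat.add_sub_cancel, Nat.sub_self, pow_zero, mul_one]
      congr 1
      refine sum_congr rfl fun a ha => ?_
      have := mem_range.1 ha
      rw [mul_assoc (goe N (c t) ^ a * goe N (c' t)), ← pow_succ, show q - 1 - a + 1 = q - a by omega]
    rw [e, Matrix.add_apply, Matrix.mul_apply, Matrix.mul_apply, ← sum_add_distrib]

/-- The normalised trace of a power. -/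
noncomputable def trM (q : ℕ) (g : Fin N × Fin N → ℝ) : ℝ := (goe N g ^ q).trace / N

/-- The mean normalised trace. -/
noncomputable def mom (N q : ℕ) : ℝ := ∫ g, trM (N := N) q g ∂stdPi (Fin N × Fin N)

theorem grow_trM (q : ℕ) : Grow (trM (N := N) q) := by
  have h := (grow_sum (univ : Finset (Fin N)) (F := fun i g => (goe N g ^ q) i i) fun i _ => grow_pow q i i).mul
    (grow_const ((N : ℝ)⁻¹))
  exact h

theorem trace_mul_goe {B : Matrix (Fin N) (Fin N) ℝ} (hB : ∀ i j, B i j = B j i)
    (c : Fin N × Fin N → ℝ) : (B * goe N c).trace = ∑ p, 2 / √(2 * N) * B p.1 p.2 * c p := by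
  simp only [Matrix.trace, Matrix.diag, Matrix.mul_apply, goe]
  rw [Fintype.sum_prod_type]
  have h1 : ∀ i j, B i j * ((c (j, i) + c (i, j)) / √(2 * (N : ℝ)))
      = B i j * c (j, i) / √(2 * (N : ℝ)) + B i j * c (i, j) / √(2 * (N : ℝ)) := fun i j => by ring
  simp only [h1, sum_add_distrib]
  rw [sum_comm (f := fun i j => B i j * c (j, i) / √(2 * (N : ℝ))), ← sum_add_distrib]
  refine sum_congr rfl fun i _ => ?_
  rw [← sum_add_distrib]
  refine sum_congr rfl fun j _ => ?_
  rw [hB j i]
  ring

/-- The gradient of a normalised trace. -/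
noncomputable def gradT (q : ℕ) (g : Fin N × Fin N → ℝ) (p : Fin N × Fin N) : ℝ :=
  2 * q / (√(2 * N) * N) * (goe N g ^ (q - 1)) p.1 p.2

theorem hasGrad_trM (q : ℕ) : HasGrad (trM (N := N) q) (gradT q) := by
  intro c c' t hc
  have h := (HasDerivAt.fun_sum fun i (_ : i ∈ (univ : Finset (Fin N))) => hasDerivAt_pow_entry hc q i i).div_const (N : ℝ)
  refine h.congr_deriv ?_
  have e : ∑ i, (∑ a ∈ range q, goe N (c t) ^ a * goe N (c' t) * goe N (c t) ^ (q - 1 - a)) i i
      = q * (goe N (c t) ^ (q - 1) * goe N (c' t)).trace := by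
    show (∑ a ∈ range q, goe N (c t) ^ a * goe N (c' t) * goe N (c t) ^ (q - 1 - a)).trace = _
    rw [trace_sum, sum_congr rfl fun a ha => ?_, sum_const, card_range, nsmul_eq_mul]
    have := mem_range.1 ha
    rw [trace_mul_comm, ← mul_assoc, ← pow_add, show q - 1 - a + a = q - 1 by omega]
  rw [e, trace_mul_goe (pow_symm _ _), mul_sum, sum_div]
  refine sum_congr rfl fun p _ => ?_
  simp only [gradT]
  ring

theorem grow_gradT (q : ℕ) (p : Fin N × Fin N) : Grow fun g => gradT (N := N) q g p :=
  (grow_pow (q - 1) p.1 p.2).const_mul _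

theorem sum_gradT_sq (q : ℕ) (g : Fin N × Fin N → ℝ) :
    ∑ p, gradT q g p ^ 2 = 2 * (q : ℝ) ^ 2 / (N : ℝ) ^ 2 * trM (2 * (q - 1)) g := by
  rcases Nat.eq_zero_or_pos N with rfl | hN
  · simp [trM]
  have hN : (0 : ℝ) < N := by exact_mod_cast hN
  have e : ∑ p : Fin N × Fin N, (goe N g ^ (q - 1)) p.1 p.2 ^ 2 = (goe N g ^ (2 * (q - 1))).trace := by
    rw [two_mul, pow_add, Fintype.sum_prod_type]
    simp only [Matrix.trace, Matrix.diag, Matrix.mul_apply]
    exact sum_congr rfl fun i _ => sum_congr rfl fun j _ => by rw [pow_symm g (q - 1) j i, pow_two]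
  simp only [gradT, mul_pow, ← mul_sum, e, trM, div_pow, Real.sq_sqrt (show (0 : ℝ) ≤ 2 * N by positivity)]
  field_simp

/-- The variance of a normalised trace. -/
theorem var_trM_le (q : ℕ) :
    ∫ g, (trM (N := N) q g - mom N q) ^ 2 ∂stdPi (Fin N × Fin N)
      ≤ 6 * (q : ℝ) ^ 2 / (N : ℝ) ^ 2 * mom N (2 * (q - 1)) := by
  refine (var_le_grad (grow_trM q) (grow_gradT q) (fun p => ?_) (hasGrad_trM q)).trans (le_of_eq ?_)
  · exact (continuous_pow_entry (q - 1) p.1 p.2).const_mul _
  rw [← integral_finsetSum _ fun p _ => (grow_gradT q p).sq.integrable]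
  simp only [sum_gradT_sq, integral_const_mul, mom]
  ring

theorem trace_sandwich (A B : Matrix (Fin N) (Fin N) ℝ) (hB : ∀ i j, B i j = B j i) :
    ∑ p : Fin N × Fin N, (A * goe N (fun r => if r = p then 1 else 0) * B) p.1 p.2
      = (A.trace * B.trace + (A * B).trace) / √(2 * N) := by
  have e : ∀ p : Fin N × Fin N, (A * goe N (fun r => if r = p then 1 else 0) * B) p.1 p.2
      = (A p.1 p.1 * B p.2 p.2 + A p.1 p.2 * B p.1 p.2) / √(2 * N) := by
    rintro ⟨i, j⟩
    simp only [Matrix.mul_apply, goe, Prod.mk.injEq, ite_and, mul_div_assoc',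
      div_mul_eq_mul_div, ← sum_div, sum_mul, mul_add, add_mul, mul_ite, ite_mul, mul_one, mul_zero,
      zero_mul, sum_add_distrib, sum_ite_eq', mem_univ, if_true, sum_ite_irrel, sum_const_zero]
  simp only [e, ← sum_div]
  congr 1
  rw [Fintype.sum_prod_type]
  simp only [Matrix.trace, Matrix.diag, Matrix.mul_apply, sum_mul_sum, ← sum_add_distrib]
  exact sum_congr rfl fun i _ => sum_congr rfl fun j _ => by rw [hB j i]

theorem hasDerivAt_pow_update (q : ℕ) (p : Fin N × Fin N) (g : Fin N × Fin N → ℝ) (x : ℝ) (i j : Fin N) :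
    HasDerivAt (fun y => (goe N (Function.update g p y) ^ q) i j)
      ((∑ a ∈ range q, goe N (Function.update g p x) ^ a * goe N (fun r => if r = p then 1 else 0)
        * goe N (Function.update g p x) ^ (q - 1 - a)) i j) x := by
  refine hasDerivAt_pow_entry (c := fun y => Function.update g p y)
    (c' := fun _ r => if r = p then 1 else 0) (fun r => ?_) q i j
  by_cases hr : r = p
  · subst hr
    simp only [Function.update_self, if_true]
    exact hasDerivAt_id x
  · simp only [Function.update_of_ne hr, if_neg hr]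
    exact hasDerivAt_const x _

/-- The loop equation. -/
theorem mom_succ (hN : 0 < N) (q : ℕ) :
    mom N (q + 2) = (∑ a ∈ range (q + 1), ∫ g, trM (N := N) a g * trM (q - a) g ∂stdPi (Fin N × Fin N))
      + ((q : ℝ) + 1) / N * mom N q := by
  set P := stdPi (Fin N × Fin N)
  have hN' : (0 : ℝ) < N := by exact_mod_cast hN
  set s := √(2 * (N : ℝ)) with hs
  have hs0 : 0 < s := by positivity
  set D : Fin N × Fin N → (Fin N × Fin N → ℝ) → ℝ := fun p g =>
    (∑ a ∈ range (q + 1), goe N g ^ a * goe N (fun r => if r = p then 1 else 0) * goe N g ^ (q - a)) p.1 p.2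
  have hgD : ∀ p, Grow (D p) := fun p => by
    simp only [D, Matrix.sum_apply, Matrix.mul_apply]
    refine grow_sum _ fun a _ => grow_sum _ fun l _ => (grow_sum _ fun l' _ => ?_).mul (grow_pow _ _ _)
    exact (grow_pow _ _ _).mul (grow_const _)
  have hibp : ∀ p : Fin N × Fin N, ∫ g, g p * (goe N g ^ (q + 1)) p.1 p.2 ∂P = ∫ g, D p g ∂P := fun p =>
    gauss_ibp p (grow_pow _ _ _) (hgD p) fun g x => by
      simpa only [D, Nat.add_sub_cancel] using hasDerivAt_pow_update (q + 1) p g x p.1 p.2
  have hlhs : ∀ g, trM (N := N) (q + 2) g = 2 / (s * N) * ∑ p, g p * (goe N g ^ (q + 1)) p.1 p.2 := fun g => by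
    rw [trM, pow_succ (n := q + 1), trace_mul_goe (pow_symm g _), mul_sum, sum_div]
    refine sum_congr rfl fun p _ => ?_
    rw [← hs]
    ring
  have hDsum : ∀ g, 2 / (s * N) * ∑ p, D p g
      = (∑ a ∈ range (q + 1), trM (N := N) a g * trM (q - a) g) + ((q : ℝ) + 1) / N * trM q g := fun g => by
    simp only [D, Matrix.sum_apply]
    rw [sum_comm, sum_congr rfl fun a _ => trace_sandwich _ _ (pow_symm g (q - a))]
    have h2 : ∀ a ∈ range (q + 1),
        ((goe N g ^ a).trace * (goe N g ^ (q - a)).trace + (goe N g ^ a * goe N g ^ (q - a)).trace) / s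
          = N / (s / N) * (trM a g * trM (q - a) g) + N / s * trM q g := fun a ha => by
      have := mem_range.1 ha
      rw [← pow_add, show a + (q - a) = q by omega]
      simp only [trM]
      field_simp
    rw [sum_congr rfl h2, sum_add_distrib, sum_const, card_range, ← mul_sum, nsmul_eq_mul]
    have hss : s * s = 2 * N := mul_self_sqrt (by positivity)
    push_cast
    field_simp
    rw [show s ^ 2 = 2 * (N : ℝ) by rw [sq]; exact hss]
  have hi : ∀ p : Fin N × Fin N, Integrable (fun g => g p * (goe N g ^ (q + 1)) p.1 p.2) P := fun p =>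
    ((grow_coord p).mul (grow_pow _ _ _)).integrable
  calc mom N (q + 2) = 2 / (s * N) * ∑ p, ∫ g, g p * (goe N g ^ (q + 1)) p.1 p.2 ∂P := by
        simp only [mom, hlhs]
        rw [integral_const_mul, integral_finsetSum _ fun p _ => hi p]
    _ = ∫ g, 2 / (s * N) * ∑ p, D p g ∂P := by
        rw [integral_const_mul, integral_finsetSum _ fun p _ => (hgD p).integrable]
        simp only [hibp, P]
    _ = _ := by
        simp only [hDsum]
        rw [integral_add (grow_sum _ fun a _ => (grow_trM a).mul (grow_trM (q - a))).integrable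
            ((grow_trM q).const_mul _).integrable,
          integral_finsetSum _ fun a _ => ((grow_trM a).mul (grow_trM (q - a))).integrable, integral_const_mul]
        rfl

end Vale.Agent.P146.Goe
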