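import Vale.Agent.P146.Goe.Poly

/-!
# P146: the variance is at most a multiple of the mean squared gradient

Two independent copies are joined by rotations.  The function changes along the path at the rate of
its gradient against an independent copy of the variables.
-/

open MeasureTheory ProbabilityTheory Real Finset

namespace Vale.Agent.P146.Goe

open P150 (stdPi)

variable {κ : Type*} [Fintype κ]

/-- `D` is the gradient of `f` along differentiable curves. -/
def HasGrad (f : (κ → ℝ) → ℝ) (D : (κ → ℝ) → κ → ℝ) : Prop :=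
  ∀ (c c' : ℝ → κ → ℝ) (t : ℝ), (∀ p, HasDerivAt (fun u => c u p) (c' t p) t) →
    HasDerivAt (fun u => f (c u)) (∑ p, D (c t) p * c' t p) t

theorem HasGrad.update [DecidableEq κ] {f : (κ → ℝ) → ℝ} {D : (κ → ℝ) → κ → ℝ} (h : HasGrad f D) (p : κ)
    (g : κ → ℝ) (x : ℝ) :
    HasDerivAt (fun y => f (Function.update g p y)) (D (Function.update g p x) p) x := by
  have h1 := h (fun y => Function.update g p y) (fun _ r => if r = p then 1 else 0) x fun r => by
    by_cases hr : r = p
    · subst hr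
      simp only [Function.update_self, if_true]
      exact hasDerivAt_id x
    · simp only [Function.update_of_ne hr, if_neg hr]
      exact hasDerivAt_const x _
  simpa using h1

/-- Square of an integral over an interval. -/
theorem sq_interval_le {h : ℝ → ℝ} (hc : Continuous h) {L : ℝ} (hL : 0 ≤ L) :
    (∫ t in (0 : ℝ)..L, h t) ^ 2 ≤ L * ∫ t in (0 : ℝ)..L, h t ^ 2 := by
  rcases hL.eq_or_lt with rfl | hL
  · simp
  set A := ∫ t in (0 : ℝ)..L, h t with hA
  have h0 : 0 ≤ ∫ t in (0 : ℝ)..L, (h t - A / L) ^ 2 :=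
    intervalIntegral.integral_nonneg hL.le fun t _ => sq_nonneg _
  have e : ∀ t, (h t - A / L) ^ 2 = h t ^ 2 - 2 * (A / L) * h t + (A / L) ^ 2 := fun t => by ring
  simp only [e] at h0
  have i1 : IntervalIntegrable (fun t => h t ^ 2) volume 0 L := (hc.pow 2).intervalIntegrable _ _
  have i2 : IntervalIntegrable (fun t => 2 * (A / L) * h t) volume 0 L :=
    (hc.const_mul _).intervalIntegrable _ _
  rw [intervalIntegral.integral_add (i1.sub i2) intervalIntegrable_const,
    intervalIntegral.integral_sub i1 i2,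
    intervalIntegral.integral_const_mul, intervalIntegral.integral_const, smul_eq_mul, ← hA] at h0
  have e2 : L * (∫ t in (0 : ℝ)..L, h t ^ 2)
      - A ^ 2 = L * ((∫ t in (0 : ℝ)..L, h t ^ 2) - 2 * (A / L) * A + (L - 0) * (A / L) ^ 2) := by
    field_simp
    ring
  linarith [mul_nonneg hL.le h0]

theorem sq_le_wt_add {f : (κ → ℝ) → ℝ} {C : ℝ} {q : ℕ} (hC : 0 ≤ C) (hb : ∀ g, |f g| ≤ C * wt g ^ q)
    (x y : κ → ℝ) (u v : ℝ) (hu : u ^ 2 ≤ 1) (hv : v ^ 2 ≤ 1) :
    |f (u • x + v • y)| ≤ C * (2 ^ q * (2 ^ q * (wt x ^ q + wt y ^ q))) := by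
  refine (hb _).trans (mul_le_mul_of_nonneg_left ?_ hC)
  have h : wt (u • x + v • y) ≤ 2 * (wt x + wt y) := by
    have e : ∑ p, (u * x p + v * y p) ^ 2 ≤ 2 * ∑ p, (x p ^ 2 + y p ^ 2) := by
      rw [mul_sum]
      refine sum_le_sum fun p _ => ?_
      nlinarith [sq_nonneg (u * x p - v * y p), mul_le_mul_of_nonneg_right hu (sq_nonneg (x p)),
        mul_le_mul_of_nonneg_right hv (sq_nonneg (y p))]
    simp only [wt, Pi.add_apply, Pi.smul_apply, smul_eq_mul]
    rw [sum_add_distrib] at e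
    linarith
  refine (pow_le_pow_left₀ (wt_pos _).le h q).trans ?_
  rw [mul_pow]
  exact mul_le_mul_of_nonneg_left (add_pow_le_two (wt_pos x).le (wt_pos y).le q) (by positivity)

/-- The rate of change along the rotation. -/
noncomputable def rate (D : (κ → ℝ) → κ → ℝ) (t : ℝ) (z : (κ → ℝ) × (κ → ℝ)) : ℝ :=
  ∑ p, D (cos t • z.1 + sin t • z.2) p * (-sin t * z.1 p + cos t * z.2 p)

theorem sq_prod_le {a b : ℝ} (ha : 0 ≤ a) (hb : 0 ≤ b) (q : ℕ) :
    (a ^ q + b ^ q) ^ 2 * (a + b) ^ 2 ≤ 8 * (a ^ (2 * q + 2) + b ^ (2 * q + 2)) := by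
  have e1 : (a ^ q + b ^ q) * (a + b) ≤ 2 * (a ^ (q + 1) + b ^ (q + 1)) := by
    have : 0 ≤ (a ^ q - b ^ q) * (a - b) := by
      rcases le_total a b with h | h
      · exact mul_nonneg_of_nonpos_of_nonpos (sub_nonpos.2 (pow_le_pow_left₀ ha h _)) (sub_nonpos.2 h)
      · exact mul_nonneg (sub_nonneg.2 (pow_le_pow_left₀ hb h _)) (sub_nonneg.2 h)
    rw [pow_succ, pow_succ]
    linarith
  rw [← mul_pow]
  refine (pow_le_pow_left₀ (by positivity) e1 2).trans ?_
  rw [show 2 * q + 2 = (q + 1) * 2 by ring, pow_mul a, pow_mul b]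
  linarith [sq_nonneg (a ^ (q + 1) - b ^ (q + 1))]

theorem exists_rate_bound {D : (κ → ℝ) → κ → ℝ} (hD : ∀ p, Grow fun g => D g p) :
    ∃ G : (κ → ℝ) × (κ → ℝ) → ℝ, Integrable G ((stdPi κ).prod (stdPi κ)) ∧
      ∀ t z, rate D t z ^ 2 ≤ G z := by
  choose _ C q hC hb using hD
  refine ⟨fun z => (Fintype.card κ : ℝ) * ∑ p, C p ^ 2 * 4 ^ (2 * q p) * (8 *
      (wt z.1 ^ (2 * q p + 2) + wt z.2 ^ (2 * q p + 2))), ?_, fun t z => ?_⟩
  · refine Integrable.const_mul (integrable_finsetSum _ fun p _ => ?_) _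
    exact ((((integrable_wt_pow _).comp_fst _).add ((integrable_wt_pow _).comp_snd _)).const_mul 8).const_mul _
  refine (sq_sum_le_card_mul_sum_sq (s := (univ : Finset κ))
    (f := fun p => D (cos t • z.1 + sin t • z.2) p * (-sin t * z.1 p + cos t * z.2 p))).trans ?_
  rw [card_univ]
  refine mul_le_mul_of_nonneg_left (sum_le_sum fun p _ => ?_) (Nat.cast_nonneg _)
  have hc := sin_sq_add_cos_sq t
  have h1 := sq_le_wt_add (hC p) (hb p) z.1 z.2 (cos t) (sin t)
    (by linarith [sq_nonneg (sin t)]) (by linarith [sq_nonneg (cos t)])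
  have h2 : |-sin t * z.1 p + cos t * z.2 p| ≤ wt z.1 + wt z.2 := by
    refine (abs_add_le _ _).trans (add_le_add ?_ ?_) <;> rw [abs_mul]
    · exact (mul_le_of_le_one_left (abs_nonneg _) (by rw [abs_neg]; exact abs_sin_le_one t)).trans
        (abs_le_wt _ p)
    · exact (mul_le_of_le_one_left (abs_nonneg _) (abs_cos_le_one t)).trans (abs_le_wt _ p)
  rw [mul_pow, ← sq_abs (D _ p), ← sq_abs (-sin t * _ + _)]
  refine (mul_le_mul (pow_le_pow_left₀ (abs_nonneg _) h1 2) (pow_le_pow_left₀ (abs_nonneg _) h2 2)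
    (by positivity) (by positivity)).trans ?_
  have h4 := mul_le_mul_of_nonneg_left (sq_prod_le (wt_pos z.1).le (wt_pos z.2).le (q p))
    (show 0 ≤ C p ^ 2 * (4 : ℝ) ^ (2 * q p) by positivity)
  refine le_trans (le_of_eq ?_) h4
  rw [show (4 : ℝ) ^ (2 * q p) = (2 ^ q p * 2 ^ q p) ^ 2 by
    rw [← mul_pow, ← pow_mul, mul_comm (q p) 2]; norm_num]
  ring

theorem continuous_rate {D : (κ → ℝ) → κ → ℝ} (hDc : ∀ p, Continuous fun g => D g p) :
    Continuous fun w : ℝ × ((κ → ℝ) × (κ → ℝ)) => rate D w.1 w.2 :=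
  continuous_finsetSum _ fun p _ => ((hDc p).comp (by fun_prop)).mul (by fun_prop)

/-- In the mean the squared rate is the squared gradient. -/
theorem integral_rate_sq {D : (κ → ℝ) → κ → ℝ} (hD : ∀ p, Grow fun g => D g p)
    (hDc : ∀ p, Continuous fun g => D g p) (t : ℝ) :
    ∫ z, rate D t z ^ 2 ∂(stdPi κ).prod (stdPi κ) = ∑ p, ∫ g, D g p ^ 2 ∂stdPi κ := by
  obtain ⟨G, hGi, hG⟩ := exists_rate_bound hD
  have hm := P166.measurePreserving_pair (κ := κ) (cos t) (sin t) (cos_sq_add_sin_sq t)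
  have hK : Continuous fun z : (κ → ℝ) × (κ → ℝ) => (∑ p, D z.1 p * z.2 p) ^ 2 :=
    (continuous_finsetSum _ fun p _ =>
      ((hDc p).comp continuous_fst).mul ((continuous_apply p).comp continuous_snd)).pow 2
  have e : ∫ z, (∑ p, D z.1 p * z.2 p) ^ 2 ∂(stdPi κ).prod (stdPi κ)
      = ∫ z, rate D t z ^ 2 ∂(stdPi κ).prod (stdPi κ) := by
    conv_lhs => rw [← hm.map_eq]
    rw [integral_map hm.measurable.aemeasurable hK.aestronglyMeasurable]
    simp [rate]
  rw [← e]
  have hi : Integrable (fun z : (κ → ℝ) × (κ → ℝ) => (∑ p, D z.1 p * z.2 p) ^ 2)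
      ((stdPi κ).prod (stdPi κ)) := by
    rw [← hm.map_eq]
    refine (integrable_map_measure hK.aestronglyMeasurable hm.measurable.aemeasurable).2 ?_
    refine hGi.mono' (hK.measurable.comp hm.measurable).aestronglyMeasurable (ae_of_all _ fun z => ?_)
    have := hG t z
    simpa [rate, abs_pow, sq_abs] using this
  rw [integral_prod _ hi]
  simp only [integral_dot_sq]
  exact integral_finsetSum _ fun p _ => (hD p).sq.integrable

/-- The integral of the squared rate over a quarter turn. -/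
noncomputable def turn (D : (κ → ℝ) → κ → ℝ) (z : (κ → ℝ) × (κ → ℝ)) : ℝ :=
  ∫ t in (0 : ℝ)..(π / 2), rate D t z ^ 2

theorem continuous_turn {D : (κ → ℝ) → κ → ℝ} (hDc : ∀ p, Continuous fun g => D g p) :
    Continuous (turn D) := by
  unfold turn
  have h : Continuous (Function.uncurry fun (z : (κ → ℝ) × (κ → ℝ)) (t : ℝ) => rate D t z ^ 2) := by
    simp only [Function.uncurry_def]
    exact ((continuous_rate hDc).comp (continuous_snd.prodMk continuous_fst)).pow 2
  exact intervalIntegral.continuous_parametric_intervalIntegral_of_continuous' h 0 (π / 2)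

theorem integral_turn {D : (κ → ℝ) → κ → ℝ} (hD : ∀ p, Grow fun g => D g p)
    (hDc : ∀ p, Continuous fun g => D g p) :
    Integrable (turn D) ((stdPi κ).prod (stdPi κ)) ∧
      ∫ z, turn D z ∂(stdPi κ).prod (stdPi κ) = π / 2 * ∑ p, ∫ g, D g p ^ 2 ∂stdPi κ := by
  obtain ⟨G, hGi, hG⟩ := exists_rate_bound hD
  have hL : 0 < π / 2 := by positivity
  refine ⟨?_, ?_⟩
  · refine (hGi.const_mul (π / 2)).mono' (continuous_turn hDc).aestronglyMeasurable (ae_of_all _ fun z => ?_)
    have h := intervalIntegral.norm_integral_le_of_norm_le_const (a := (0 : ℝ)) (b := π / 2)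
      (C := G z) (f := fun t => rate D t z ^ 2) fun t _ => by
        rw [norm_eq_abs, abs_pow, sq_abs]; exact hG t z
    rw [sub_zero, abs_of_pos hL, mul_comm] at h
    exact h
  · simp only [turn]
    rw [← intervalIntegral_integral_swap ?_]
    · simp only [integral_rate_sq hD hDc, intervalIntegral.integral_const, sub_zero, smul_eq_mul]
    · rw [Set.uIoc_of_le hL.le]
      have : IsFiniteMeasure (volume.restrict (Set.Ioc (0 : ℝ) (π / 2))) := by
        refine ⟨?_⟩
        rw [Measure.restrict_apply_univ]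
        exact measure_Ioc_lt_top
      refine (hGi.comp_snd _).mono' ((continuous_rate hDc).pow 2).aestronglyMeasurable
        (ae_of_all _ fun w => ?_)
      rw [norm_eq_abs, Function.uncurry_def, abs_pow, sq_abs]
      exact hG w.1 w.2

theorem sq_diff_le_turn {f : (κ → ℝ) → ℝ} {D : (κ → ℝ) → κ → ℝ}
    (hDc : ∀ p, Continuous fun g => D g p) (hd : HasGrad f D) (z : (κ → ℝ) × (κ → ℝ)) :
    (f z.2 - f z.1) ^ 2 ≤ π / 2 * turn D z := by
  have h2 : Continuous fun t : ℝ => ((t, z) : ℝ × ((κ → ℝ) × (κ → ℝ))) := by fun_prop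
  have hFt : Continuous fun t => rate D t z := by
    have h3 := (continuous_rate hDc).comp h2
    simpa only [Function.comp_def] using h3
  have hcs : ∀ t p, HasDerivAt (fun u => (cos u • z.1 + sin u • z.2) p)
      (-sin t * z.1 p + cos t * z.2 p) t := fun t p => by
    simp only [Pi.add_apply, Pi.smul_apply, smul_eq_mul]
    exact ((hasDerivAt_cos t).mul_const _).add ((hasDerivAt_sin t).mul_const _)
  have hdt : ∀ t, HasDerivAt (fun u => f (cos u • z.1 + sin u • z.2)) (rate D t z) t := fun t => by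
    have h1 := hd (fun u => cos u • z.1 + sin u • z.2) (fun u p => -sin u * z.1 p + cos u * z.2 p) t (hcs t)
    rw [rate]
    exact h1
  have h := intervalIntegral.integral_eq_sub_of_hasDerivAt (fun t _ => hdt t)
    (hFt.intervalIntegrable 0 (π / 2))
  simp only [cos_pi_div_two, sin_pi_div_two, cos_zero, sin_zero, zero_smul, one_smul, zero_add, add_zero] at h
  rw [← h]
  exact sq_interval_le hFt (by positivity)

/-- The rate as a bound for the change between two copies. -/
theorem integral_sq_diff_le {f : (κ → ℝ) → ℝ} {D : (κ → ℝ) → κ → ℝ}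
    (hD : ∀ p, Grow fun g => D g p) (hDc : ∀ p, Continuous fun g => D g p) (hd : HasGrad f D) :
    ∫ z, (f z.2 - f z.1) ^ 2 ∂(stdPi κ).prod (stdPi κ) ≤ 6 * ∑ p, ∫ g, D g p ^ 2 ∂stdPi κ := by
  obtain ⟨hi, he⟩ := integral_turn hD hDc
  refine (integral_mono_of_nonneg (ae_of_all _ fun z => sq_nonneg _) (hi.const_mul (π / 2))
    (ae_of_all _ fun z => sq_diff_le_turn hDc hd z)).trans ?_
  rw [integral_const_mul, he, ← mul_assoc]
  refine mul_le_mul_of_nonneg_right ?_ (sum_nonneg fun p _ => integral_nonneg fun g => sq_nonneg _)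
  nlinarith [pi_pos, pi_lt_four]

/-- The variance is at most a multiple of the mean squared gradient. -/
theorem var_le_grad {f : (κ → ℝ) → ℝ} {D : (κ → ℝ) → κ → ℝ} (hf : Grow f)
    (hD : ∀ p, Grow fun g => D g p) (hDc : ∀ p, Continuous fun g => D g p) (hd : HasGrad f D) :
    ∫ g, (f g - ∫ h, f h ∂stdPi κ) ^ 2 ∂stdPi κ ≤ 3 * ∑ p, ∫ g, D g p ^ 2 ∂stdPi κ := by
  set P := stdPi κ
  set m := ∫ h, f h ∂P
  have hf2 : Integrable (fun g => (f g - m) ^ 2) P := ((hf.sub (grow_const m)).sq).integrable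
  have hf1 : Integrable (fun g => f g - m) P := (hf.sub (grow_const m)).integrable
  have h1 : ∫ z, (f z.2 - f z.1) ^ 2 ∂P.prod P = 2 * ∫ g, (f g - m) ^ 2 ∂P := by
    have e : ∀ z : (κ → ℝ) × (κ → ℝ), (f z.2 - f z.1) ^ 2
        = (f z.2 - m) ^ 2 + (f z.1 - m) ^ 2 - 2 * ((f z.1 - m) * (f z.2 - m)) := fun z => by ring
    have hz : ∫ g, f g - m ∂P = 0 := by
      rw [integral_sub hf.integrable (integrable_const _)]
      simp [m, P]
    simp only [e]
    rw [integral_sub ((hf2.comp_snd P).fun_add (hf2.comp_fst P)) ((hf1.mul_prod hf1).const_mul 2),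
      integral_add (hf2.comp_snd P) (hf2.comp_fst P), integral_const_mul,
      integral_prod_mul (fun g => f g - m) (fun g => f g - m), hz,
      integral_fun_snd (fun g => (f g - m) ^ 2), integral_fun_fst (fun g => (f g - m) ^ 2)]
    simp
    ring
  have h2 := integral_sq_diff_le hD hDc hd
  rw [h1] at h2
  linarith

end Vale.Agent.P146.Goe
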