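import Vale.Agent.P150.Guerra
import Vale.Agent.P166.Gauss

/-!
# P146: Gaussian calculus for functions of polynomial growth

Integration by parts and a variance bound by the mean squared gradient, for functions of independent
standard normal variables that grow at most polynomially.
-/

open MeasureTheory ProbabilityTheory Real Finset

namespace Vale.Agent.P146.Goe

open P150 (std stdPi)

variable {κ : Type*} [Fintype κ]

/-- One plus the squared size. -/
def wt (g : κ → ℝ) : ℝ := 1 + ∑ p, g p ^ 2

theorem one_le_wt (g : κ → ℝ) : 1 ≤ wt g :=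
  le_add_of_nonneg_right (sum_nonneg fun p _ => sq_nonneg _)

theorem wt_pos (g : κ → ℝ) : 0 < wt g := one_pos.trans_le (one_le_wt g)

theorem measurable_wt : Measurable (wt : (κ → ℝ) → ℝ) := by unfold wt; fun_prop

theorem abs_le_wt (g : κ → ℝ) (p : κ) : |g p| ≤ wt g := by
  have h : g p ^ 2 ≤ ∑ r, g r ^ 2 := single_le_sum (f := fun r => g r ^ 2) (fun r _ => sq_nonneg _) (mem_univ p)
  unfold wt
  nlinarith [sq_nonneg (|g p| - 1), sq_abs (g p), abs_nonneg (g p)]

theorem add_pow_le_two {a b : ℝ} (ha : 0 ≤ a) (hb : 0 ≤ b) (q : ℕ) :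
    (a + b) ^ q ≤ 2 ^ q * (a ^ q + b ^ q) := by
  refine (pow_le_pow_left₀ (add_nonneg ha hb) (show a + b ≤ 2 * max a b by
    linarith [le_max_left a b, le_max_right a b]) q).trans ?_
  rw [mul_pow]
  refine mul_le_mul_of_nonneg_left ?_ (by positivity)
  rcases max_choice a b with h | h <;> rw [h] <;> linarith [pow_nonneg ha q, pow_nonneg hb q]

theorem integrable_wt_pow (q : ℕ) : Integrable (fun g : κ → ℝ => wt g ^ q) (stdPi κ) := by
  classical
  suffices h : ∀ s : Finset κ, Integrable (fun g : κ → ℝ => (1 + ∑ p ∈ s, g p ^ 2) ^ q) (stdPi κ) from h univ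
  intro s
  induction s using Finset.induction with
  | empty => simp
  | insert a s ha ih =>
    have h2 : Integrable (fun g : κ → ℝ => (g a ^ 2) ^ q) (stdPi κ) := by
      simp only [← pow_mul]
      exact (P150.measurePreserving_coord a).integrable_comp_of_integrable (P150.integrable_pow_std (2 * q))
    refine Integrable.mono' ((ih.add h2).const_mul (2 ^ q))
      (Measurable.aestronglyMeasurable (by fun_prop)) (ae_of_all _ fun g => ?_)
    rw [sum_insert ha, norm_eq_abs, abs_of_nonneg (by positivity), Pi.add_apply, add_left_comm, add_comm (g a ^ 2)]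
    exact add_pow_le_two (by positivity) (sq_nonneg _) q

/-- Polynomial growth. -/
def Grow (f : (κ → ℝ) → ℝ) : Prop := Measurable f ∧ ∃ C : ℝ, ∃ q : ℕ, 0 ≤ C ∧ ∀ g, |f g| ≤ C * wt g ^ q

theorem Grow.integrable {f : (κ → ℝ) → ℝ} (hf : Grow f) : Integrable f (stdPi κ) := by
  obtain ⟨hm, C, q, -, hb⟩ := hf
  exact Integrable.mono' ((integrable_wt_pow q).const_mul C) hm.aestronglyMeasurable
    (ae_of_all _ fun g => (norm_eq_abs _).trans_le (hb g))

theorem grow_const (c : ℝ) : Grow (fun _ : κ → ℝ => c) :=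
  ⟨measurable_const, |c|, 0, abs_nonneg c, fun g => by simp⟩

theorem grow_coord (p : κ) : Grow (fun g : κ → ℝ => g p) :=
  ⟨measurable_pi_apply p, 1, 1, zero_le_one, fun g => by simpa using abs_le_wt g p⟩

theorem Grow.add {f h : (κ → ℝ) → ℝ} (hf : Grow f) (hh : Grow h) : Grow fun g => f g + h g := by
  obtain ⟨hm, C, q, hC, hb⟩ := hf
  obtain ⟨hm', C', q', hC', hb'⟩ := hh
  refine ⟨hm.add hm', C + C', max q q', add_nonneg hC hC', fun g => ?_⟩
  refine (abs_add_le _ _).trans ((add_le_add (hb g) (hb' g)).trans ?_)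
  rw [add_mul]
  exact add_le_add
    (mul_le_mul_of_nonneg_left (pow_le_pow_right₀ (one_le_wt g) (le_max_left q q')) hC)
    (mul_le_mul_of_nonneg_left (pow_le_pow_right₀ (one_le_wt g) (le_max_right q q')) hC')

theorem Grow.mul {f h : (κ → ℝ) → ℝ} (hf : Grow f) (hh : Grow h) : Grow fun g => f g * h g := by
  obtain ⟨hm, C, q, hC, hb⟩ := hf
  obtain ⟨hm', C', q', hC', hb'⟩ := hh
  refine ⟨hm.mul hm', C * C', q + q', mul_nonneg hC hC', fun g => ?_⟩
  rw [abs_mul, pow_add, mul_mul_mul_comm]
  exact mul_le_mul (hb g) (hb' g) (abs_nonneg _) (mul_nonneg hC (pow_nonneg (wt_pos g).le q))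

theorem Grow.const_mul {f : (κ → ℝ) → ℝ} (hf : Grow f) (c : ℝ) : Grow fun g => c * f g :=
  (grow_const c).mul hf

theorem Grow.sub {f h : (κ → ℝ) → ℝ} (hf : Grow f) (hh : Grow h) : Grow fun g => f g - h g := by
  simpa [sub_eq_add_neg] using hf.add (hh.const_mul (-1))

theorem Grow.sq {f : (κ → ℝ) → ℝ} (hf : Grow f) : Grow fun g => f g ^ 2 := by
  simpa [pow_two] using hf.mul hf

theorem grow_sum {ι : Type*} (s : Finset ι) {F : ι → (κ → ℝ) → ℝ} (h : ∀ i ∈ s, Grow (F i)) :
    Grow fun g => ∑ i ∈ s, F i g := by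
  classical
  induction s using Finset.induction with
  | empty => simpa using grow_const (κ := κ) 0
  | insert a s ha ih =>
    simp only [sum_insert ha]
    exact (h a (mem_insert_self a s)).add (ih fun i hi => h i (mem_insert_of_mem hi))

theorem wt_update [DecidableEq κ] (g : κ → ℝ) (p : κ) (x : ℝ) :
    wt (Function.update g p x) ≤ wt g * (1 + x ^ 2) := by
  have h : ∑ r, Function.update g p x r ^ 2 ≤ x ^ 2 + ∑ r, g r ^ 2 := by
    rw [← add_sum_erase univ _ (mem_univ p), ← add_sum_erase univ (fun r => g r ^ 2) (mem_univ p),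
      Function.update_self, sum_congr rfl fun r hr => by rw [Function.update_of_ne (ne_of_mem_erase hr)]]
    linarith [sq_nonneg (g p)]
  have h0 : 0 ≤ ∑ r, g r ^ 2 := sum_nonneg fun r _ => sq_nonneg _
  unfold wt
  nlinarith [mul_nonneg h0 (sq_nonneg x)]

/-- Integration by parts in one coordinate. -/
theorem gauss_ibp [DecidableEq κ] (p : κ) {φ φ' : (κ → ℝ) → ℝ} (hf : Grow φ) (hf' : Grow φ')
    (hd : ∀ g x, HasDerivAt (fun y => φ (Function.update g p y)) (φ' (Function.update g p x)) x) :
    ∫ g, g p * φ g ∂stdPi κ = ∫ g, φ' g ∂stdPi κ := by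
  have hu := P150.measurePreserving_update (κ := κ) p
  have hslice : ∀ {f : (κ → ℝ) → ℝ}, Grow f → ∀ g,
      Integrable (fun x => f (Function.update g p x)) std := fun {f} hf g => by
    obtain ⟨hm, C, q, hC, hb⟩ := hf
    have hpoly : Integrable (fun x : ℝ => (1 + x ^ 2) ^ q) std := by
      refine Integrable.mono' (((integrable_const (1 : ℝ)).add (P150.integrable_pow_std (2 * q))).const_mul (2 ^ q))
        (by fun_prop) (ae_of_all _ fun x => ?_)
      rw [norm_eq_abs, abs_of_nonneg (by positivity), Pi.add_apply, pow_mul]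
      simpa using add_pow_le_two zero_le_one (sq_nonneg x) q
    refine Integrable.mono' (hpoly.const_mul (C * wt g ^ q))
      (hm.comp (measurable_update g)).aestronglyMeasurable (ae_of_all _ fun x => ?_)
    rw [norm_eq_abs, mul_assoc, ← mul_pow]
    exact (hb _).trans (mul_le_mul_of_nonneg_left (pow_le_pow_left₀ (wt_pos _).le (wt_update g p x) q) hC)
  have hint : Integrable (fun g => g p * φ g) (stdPi κ) := ((grow_coord p).mul hf).integrable
  have hint' : Integrable φ' (stdPi κ) := hf'.integrable
  rw [← hu.map_eq, integral_map hu.measurable.aemeasurable (by rw [hu.map_eq]; exact hint.1),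
    integral_map hu.measurable.aemeasurable (by rw [hu.map_eq]; exact hint'.1)]
  rw [integral_prod (fun z : (κ → ℝ) × ℝ => Function.update z.1 p z.2 p * φ (Function.update z.1 p z.2))
      (hu.integrable_comp_of_integrable hint),
    integral_prod (fun z : (κ → ℝ) × ℝ => φ' (Function.update z.1 p z.2))
      (hu.integrable_comp_of_integrable hint')]
  refine integral_congr_ae (ae_of_all _ fun g => ?_)
  simp only [Function.update_self]
  refine P150.stein (hd g) (hslice hf g) (hslice hf' g) ?_
  simpa using hslice ((grow_coord p).mul hf) g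

theorem integral_coord_mul [DecidableEq κ] (p r : κ) :
    ∫ g, g p * g r ∂stdPi κ = if p = r then 1 else 0 := by
  rw [gauss_ibp p (φ' := fun _ => if p = r then 1 else 0) (grow_coord r) (grow_const _) fun g x => ?_]
  · simp
  · by_cases h : p = r
    · subst h
      simp only [Function.update_self, if_true]
      exact hasDerivAt_id x
    · simp only [Function.update_of_ne (Ne.symm h), if_neg h]
      exact hasDerivAt_const x _

theorem integral_dot_sq (v : κ → ℝ) : ∫ g, (∑ p, v p * g p) ^ 2 ∂stdPi κ = ∑ p, v p ^ 2 := by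
  classical
  have hi : ∀ p r, Integrable (fun g : κ → ℝ => v p * g p * (v r * g r)) (stdPi κ) := fun p r =>
    (((grow_coord p).const_mul (v p)).mul ((grow_coord r).const_mul (v r))).integrable
  simp only [pow_two, Finset.sum_mul_sum]
  rw [integral_finsetSum _ fun p _ => integrable_finsetSum _ fun r _ => hi p r]
  refine sum_congr rfl fun p _ => ?_
  rw [integral_finsetSum _ fun r _ => hi p r]
  have e : ∀ r, ∫ g, v p * g p * (v r * g r) ∂stdPi κ = v p * v r * if p = r then 1 else 0 := fun r => by
    simp only [mul_mul_mul_comm (v p)]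
    rw [integral_const_mul, integral_coord_mul]
  simp [e]

end Vale.Agent.P146.Goe
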