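import Vale.Agent.P146.Goe.Mom
import Vale.Agent.P166.Haar

/-!
# P146: eigenvalues of the GOE matrix
-/

open MeasureTheory Real Finset Matrix Polynomial

namespace Vale.Agent.P146.Goe

variable {N : ℕ}

theorem isHermitian_goe (g : Fin N × Fin N → ℝ) : (goe N g).IsHermitian := by
  ext i j; simp [conjTranspose, goe, add_comm]

/-- The eigenvalues. -/
noncomputable def lamG (g : Fin N × Fin N → ℝ) : Fin N → ℝ := (isHermitian_goe g).eigenvalues

theorem conj_pow {U M : Matrix (Fin N) (Fin N) ℝ} (hU : U * Uᵀ = 1) (hU' : Uᵀ * U = 1) (n : ℕ) :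
    (Uᵀ * M * U) ^ n = Uᵀ * M ^ n * U := by
  induction n with
  | zero => simp [hU']
  | succ n ih =>
    rw [pow_succ, ih, pow_succ]
    simp only [mul_assoc]
    rw [← mul_assoc U Uᵀ (M * U), hU, one_mul]

theorem aeval_conj {U M : Matrix (Fin N) (Fin N) ℝ} (hU : U * Uᵀ = 1) (hU' : Uᵀ * U = 1) (f : ℝ[X]) :
    aeval (Uᵀ * M * U) f = Uᵀ * aeval M f * U := by
  induction f using Polynomial.induction_on' with
  | add p q hp hq => simp [hp, hq, mul_add, add_mul]
  | monomial n a =>
    rw [aeval_monomial, aeval_monomial, conj_pow hU hU', Algebra.algebraMap_eq_smul_one]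
    simp only [smul_mul_assoc, one_mul, mul_smul_comm]

theorem aeval_diag (v : Fin N → ℝ) (f : ℝ[X]) :
    aeval (diagonal v) f = diagonal fun i => f.eval (v i) := by
  induction f using Polynomial.induction_on' with
  | add p q hp hq => simp [hp, hq, diagonal_add]
  | monomial n a =>
    simp only [aeval_monomial, diagonal_pow, Algebra.algebraMap_eq_smul_one, smul_mul_assoc, one_mul,
      ← diagonal_smul, eval_monomial]
    rfl

/-- The spectral theorem. -/
theorem exists_spectral (g : Fin N × Fin N → ℝ) :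
    ∃ V : Matrix (Fin N) (Fin N) ℝ, V * Vᵀ = 1 ∧ Vᵀ * V = 1 ∧ goe N g = Vᵀ * diagonal (lamG g) * V := by
  set h := isHermitian_goe g
  set U : Matrix (Fin N) (Fin N) ℝ := (h.eigenvectorUnitary : Matrix (Fin N) (Fin N) ℝ)
  have hs : star U = Uᵀ := by rw [star_eq_conjTranspose, conjTranspose_eq_transpose_of_trivial]
  refine ⟨Uᵀ, ?_, ?_, ?_⟩
  · rw [transpose_transpose, ← hs]; exact Unitary.coe_star_mul_self _
  · rw [transpose_transpose, ← hs]; exact Unitary.coe_mul_star_self _
  · rw [transpose_transpose, ← hs]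
    conv_lhs => rw [h.spectral_theorem]
    simp [Unitary.conjStarAlgAut_apply, U, lamG]

theorem trace_aeval (g : Fin N × Fin N → ℝ) (f : ℝ[X]) :
    (aeval (goe N g) f).trace = ∑ i, f.eval (lamG g i) := by
  obtain ⟨V, h1, h2, h3⟩ := exists_spectral g
  rw [h3, aeval_conj h1 h2, aeval_diag, trace_mul_comm, ← mul_assoc, h1, one_mul, trace_diagonal]

theorem trM_eq (q : ℕ) (g : Fin N × Fin N → ℝ) : trM q g = (∑ i, lamG g i ^ q) / N := by
  have h := trace_aeval g (X ^ q)
  simp only [map_pow, aeval_X, eval_pow, eval_X] at h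
  rw [trM, h]

theorem trM_two_nonneg (p : ℕ) (g : Fin N × Fin N → ℝ) : 0 ≤ trM (2 * p) g := by
  rw [trM_eq]
  exact div_nonneg (sum_nonneg fun i _ => by rw [pow_mul]; positivity) (Nat.cast_nonneg N)

theorem trM_zero (hN : 0 < N) (g : Fin N × Fin N → ℝ) : trM 0 g = 1 := by
  rw [trM_eq]; simp [hN.ne']

/-- A product of two traces is at most twice the trace of the total even power. -/
theorem abs_trM_mul_le (a b : ℕ) {p : ℕ} (h : a + b = 2 * p) (g : Fin N × Fin N → ℝ) :
    |trM a g * trM b g| ≤ 2 * trM (2 * p) g := by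
  have key : ∀ x y : ℝ, 0 ≤ x → 0 ≤ y → x ^ a * y ^ b ≤ x ^ (2 * p) + y ^ (2 * p) := fun x y hx hy => by
    have hm : 0 ≤ max x y := hx.trans (le_max_left _ _)
    refine (mul_le_mul (pow_le_pow_left₀ hx (le_max_left x y) a) (pow_le_pow_left₀ hy (le_max_right x y) b)
      (pow_nonneg hy b) (pow_nonneg hm a)).trans ?_
    rw [← pow_add, h]
    rcases max_choice x y with e | e <;> rw [e] <;> linarith [pow_nonneg hx (2 * p), pow_nonneg hy (2 * p)]
  rw [trM_eq, trM_eq, trM_eq, div_mul_div_comm, abs_div, abs_of_nonneg (by positivity : (0 : ℝ) ≤ N * N),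
    sum_mul_sum]
  rcases Nat.eq_zero_or_pos N with rfl | hN
  · simp
  have hN : (0 : ℝ) < N := by exact_mod_cast hN
  rw [div_le_iff₀ (by positivity)]
  refine (abs_sum_le_sum_abs _ _).trans ((sum_le_sum fun i _ => (abs_sum_le_sum_abs _ _).trans
    (sum_le_sum (g := fun j => lamG g i ^ (2 * p) + lamG g j ^ (2 * p)) fun j _ => ?_)).trans_eq ?_)
  · rw [abs_mul, abs_pow, abs_pow]
    have := key |lamG g i| |lamG g j| (abs_nonneg _) (abs_nonneg _)
    rwa [(even_two_mul p).pow_abs, (even_two_mul p).pow_abs] at this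
  · simp only [sum_add_distrib, sum_const, card_univ, Fintype.card_fin, nsmul_eq_mul, ← mul_sum]
    field_simp
    ring

end Vale.Agent.P146.Goe
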